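import Vale.Agent.P354MG.Chart
import Vale.Agent.P354CQ.Defs
import Vale.Agent.P354RN.Defs
import Vale.Agent.P354XV.First
import Vale.Agent.P354PA.Lim

/-!
The parts of CHART. Exact statements. All estimates are pointwise bounds of jets on the base.
-/

open scoped ContDiff
open Set Filter Topology

noncomputable section

namespace Vale.Agent.P354MG

open Vale.Agent.P354n (R4)
open Vale.Agent.P354I (rm)
open Vale.Agent.P354XG Vale.Agent.P354XD Vale.Agent.P354XR Vale.Agent.P354XI Vale.Agent.P354Z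
open Vale.Agent.P354XE (Tw gin rd eT)
open Vale.Agent.P354XV (Lv Fst)
open Vale.Agent.P354XO (Om Box dn4 dnf sN sS rr)
open Vale.Agent.P354YI (Jb)
open Vale.Agent.P354YO (sh IsTh Sb)
open Vale.Agent.P354YA (eta Ok2)
open Vale.Agent.P354YN (Ad zN)
open Vale.Agent.P354CQ (glu anc)
open Vale.Agent.P354RN (shr)
open Vale.Agent.P354PA (Pa Ta)

/-! ### The straight chart of the base -/

/-- The radial field, the point of the ray through q with the radius s, the maps to the ingoing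
chart and to the chart of the estimates, and Kerr in the two charts. -/
def er4 (q : R4) : R4 := (0, (rd q)⁻¹ • q.2)
def ray (s : ℝ) (q : R4) : R4 := (q.1, (s / rd q) • q.2)
def st4 (M0 : ℝ) (A B : ℝ → ℝ) : R4 → R4 := sh (fun r => A r - 4 * M0 ^ 2 / r) B
def ki4 (M0 : ℝ) : R4 → R4 := sh (fun r => -(4 * M0 ^ 2 / r)) 0
def ko4 (M0 : ℝ) : R4 → R4 := sh (fun r => 4 * M0 ^ 2 / r) 0
def kS (M0 M a : ℝ) (A B : ℝ → ℝ) : Tw := P354XE.pb (st4 M0 A B) (gin M a)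
def kE (M a : ℝ) (A B : ℝ → ℝ) : Tw := P354XE.pb (sh A B) (gin M a)

/-- The map φ is close to the identity at q; the time may be shifted. -/
structure Nid (n : ℕ) (φ : R4 → R4) (q : R4) (e : ℝ) : Prop where
  ev : ∀ᶠ x in 𝓝 q, ContDiffAt ℝ ∞ φ x
  d : Jb n (fun x => fderiv ℝ φ x - ContinuousLinearMap.id ℝ R4) q e
  x : ‖(φ q - q).2‖ ≤ e

theorem Nid.sm {n : ℕ} {φ : R4 → R4} {q : R4} {e : ℝ} (h : Nid n φ q e) : ContDiffAt ℝ ∞ φ q :=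
  h.ev.self_of_nhds

theorem Nid.mono {n n' : ℕ} {φ : R4 → R4} {q : R4} {e e' : ℝ} (h : Nid n φ q e) (k : n' ≤ n)
    (l : e ≤ e') : Nid n' φ q e' := ⟨h.ev, h.d.mono k l, h.x.trans l⟩

/-- The defect of φ along the rays. -/
def dfc (φ : R4 → R4) (k : ℝ) (x : R4) : R4 := fderiv ℝ φ x (er4 x) - k • er4 (φ x)

/-- The canonical lift of a map of the base. -/
def lft (φ : R4 → R4) (x : E6) : E6 :=
  ((φ (pj x)).1, rr (φ (pj x)), ((2 * rr (φ (pj x)))⁻¹ : ℝ) •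
    (x.2.2.1 • (sN (φ (pj x))).2.2 + x.2.2.2 • (sS (φ (pj x))).2.2))

/-- LIFT. -/
def LIFT : Prop := (∀ φ (x : E6), 0 < x.2.1 → x.2.2 ≠ 0 → φ (pj x) = pj x → lft φ x = x) ∧
  ∀ r1 ρ : ℝ, 0 < r1 → ∃ C ≥ (1 : ℝ), ∀ (D : Set (ℝ × ℝ)) φ e, IsOpen D → 0 ≤ e → C * e ≤ 1 / 8 →
    (∀ p ∈ D, r1 ≤ p.2 ∧ p.2 ≤ ρ) → (∀ x ∈ Om D, Nid 0 φ (pj x) e) →
    Box D (lft φ) 1 (C * e) (C * e) ∧ ∀ x ∈ Om D, pj (lft φ x) = φ (pj x)

/-- SHELL: the image of the outgoing field. -/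
def SHELL : Prop := ∀ (M a R1 : ℝ) (A B : ℝ → ℝ) (n : ℕ), IsTh M M a A B → ∃ m, ∀ ρ, ∃ C, ∃ e > 0,
  ∀ (c : P354YT.Pm) κ g φ M' a' A' B' k μ q, Ok2 c → c.M = M → c.a = a → c.R1 = R1 → c.k = 1 →
    IsTh M M' a' A' B' → |M' - M| + |a' - a| ≤ e → 0 < k → k ^ 3 * M' = M → R1 + 1 ≤ rd q →
    rd q ≤ ρ → μ ∈ Icc 0 e → (∀ s ∈ Icc (R1 + 1) (rd q),
      (∀ᶠ p in 𝓝 (st4 M A B (ray s q)), Fst c κ g p) ∧ Nid m φ (ray s q) e ∧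
      P354XE.Bd m (P354XE.pb (st4 M A B) g - P354XE.pb φ (kS M M' a' A' B')) (ray s q) μ) →
    Jb n (dfc φ k⁻¹) q (C * μ)

/-- FARC: the chart along the rays is close to φ. -/
def FARC : Prop := ∀ (R ρ : ℝ) (n : ℕ), 1 ≤ R → ∃ C, ∃ e > 0, ∀ φ (α : E6 → ℝ) k μ (x : E6),
  x.2.2 ≠ 0 → R ≤ x.2.1 → x.2.1 ≤ ρ → μ ∈ Icc 0 e → |k - 1| ≤ e → (∀ y, α (anc R y) = α y) →
  (∀ᶠ y in 𝓝 (anc R x), ∀ z ≠ 0, ContDiffAt ℝ ∞ α (P354XO.sc z y) ∧ α (P354XO.sc z y) = α y) →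
  Jb n (fun q => dnf α q - k) (pj (anc R x)) μ →
  (∀ s ∈ Icc R x.2.1, Nid n φ (pj (anc s x)) e ∧ Jb n (dfc φ k) (pj (anc s x)) μ) →
  ContDiffAt ℝ ∞ (dn4 (glu R (lft φ) α)) (pj x) ∧
    Jb n (fun q => dn4 (glu R (lft φ) α) q - φ q) (pj x) (C * μ)

/-- CMP: the metric in the chart of the estimates; b is the inverse of Φ. -/
def CMP : Prop := ∀ (M a r1 ρ : ℝ) (n : ℕ), |a| < M → 0 < r1 → ∃ C, ∃ e > 0,
  ∀ (h : Tw) (φ Φ b : R4 → R4) M' a' A' B' q μ, IsTh M M' a' A' B' → |M' - M| + |a' - a| ≤ e →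
    r1 ≤ rd q → rd q ≤ ρ → μ ∈ Icc 0 e → Sb h q → Nid n φ q e → ContDiffAt ℝ ∞ Φ q →
    Jb (n + 1) (fun x => Φ x - φ x) q μ → ContDiffAt ℝ ∞ b (ki4 M (Φ q)) →
    (∀ᶠ x in 𝓝 q, b (ki4 M (Φ x)) = x) →
    P354XE.Bd n (h - P354XE.pb φ (kS M M' a' A' B')) q μ →
    P354XE.Bd n (P354XE.pb b h - kE M' a' A' B') (ki4 M (Φ q)) (C * μ)

/-! ### The transverse frame in the chart of the estimates -/

/-- The frame F1. -/
def fE (O : Set E6) (g : Tw) (M0 M a : ℝ) : Fr (Sm (on O)) :=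
  (frK (hp (on O)) (pI O M0 M a)).full (S := ge O g) (opsS rfl) (ge O g).R

def OkE (O : Set E6) (g : Tw) (M0 M a : ℝ) : Prop :=
  (frK (hp (on O)) (pI O M0 M a)).Ok (S := ge O g) (opsS rfl) (ge O g).R

/-- NONE: the frame is defined, and its data are close to those of Kerr. -/
def NONE : Prop := ∀ M0 a0 r1 : ℝ, |a0| < M0 → 0 < r1 → (∀ ρ, ∃ e > 0, ∀ O g M a A B, Cone O →
    (∀ x ∈ O, VacAt g (pj x)) → IsTh M0 M a A B → |M - M0| + |a - a0| ≤ e →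
    (∀ x ∈ O, r1 ≤ x.2.1 ∧ x.2.1 ≤ ρ ∧ P354XE.Bd 2 (g - kE M a A B) (pj x) e) →
    OkE O g M0 M a ∧ (fE O g M0 M a).WN (ge O g) ∧ ((fE O g M0 M a).ghp (ge O g)).P1 = 0 ∧
      ((fE O g M0 M a).ghp (ge O g)).P3 = 0 ∧ IsUnit ((fE O g M0 M a).ghp (ge O g)).P2) ∧
  ∀ n, ∃ m, ∀ ρ, ∃ C, ∃ e > 0, ∀ O g M a A B, Cone O → (∀ x ∈ O, VacAt g (pj x)) →
    IsTh M0 M a A B → |M - M0| + |a - a0| ≤ e → OkE O g M0 M a → ∀ x ∈ O, An x → r1 ≤ x.2.1 →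
    x.2.1 ≤ ρ → ∀ d ∈ Icc 0 e, P354XE.Bd m (g - kE M a A B) (pj x) d →
      ∀ i, q2 (lt (hp _) (pI O M0 M a)) x n
        (dat (hp _) (pI O M0 M a) ((fE O g M0 M a).ghp (ge O g)) i -
          dat (hp _) (pI O M0 M a) (kI O M0 M a).kerr i) ≤ (C * d) ^ 2

/-! ### The affine parameter -/

/-- The vector at q which is tangent to the cylinder and is mapped to d/du modulo the ray, and the
factor of the affine parameter on the ray through q. -/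
def vt (φ : R4 → R4) (q : R4) : R4 :=
  (fderiv ℝ φ q).inverse eT - (P354XE.dr q ((fderiv ℝ φ q).inverse eT) /
    P354XE.dr q ((fderiv ℝ φ q).inverse (er4 (φ q)))) • (fderiv ℝ φ q).inverse (er4 (φ q))
def al4 (R : ℝ) (h : Tw) (φ : R4 → R4) (q : R4) : ℝ :=
  -h (ray R q) (er4 (ray R q)) (vt φ (ray R q))

/-- ALP: the factor is almost constant. -/
def ALP : Prop := ∀ (M a R : ℝ) (n : ℕ), |a| < M → 10 * M + 10 ≤ R → ∃ C, ∃ e > 0,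
  ∀ (h : Tw) φ M' a' A' B' k μ q, IsTh M M' a' A' B' → |M' - M| + |a' - a| ≤ e → |k - 1| ≤ e →
    rd q = R → μ ∈ Icc 0 e → Sb h q → Nid n φ q e → Jb n (dfc φ k) q μ →
    P354XE.Bd n (h - P354XE.pb φ (kS M M' a' A' B')) q μ →
    ContDiffAt ℝ ∞ (al4 R h φ) q ∧ Jb n (fun x => al4 R h φ x - k) q (C * μ)

/-! ### The near chart -/

/-- The region in the chart of the slices. -/
structure Rg (r1 R1 Rs ti : ℝ) (D : Set (ℝ × ℝ)) : Prop where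
  op : IsOpen D
  box : ∀ p ∈ D, ti < p.1 ∧ r1 < p.2 ∧ p.2 < Rs
  star : ∀ p ∈ D, ∀ r ∈ uIcc R1 p.2, (p.1, r) ∈ D
  down : ∀ p ∈ D, ∀ t ∈ Ioc ti p.1, (t, p.2) ∈ D
  fat : ∀ p ∈ D, ∀ t ∈ Ioc ti (p.1 - 1), ∀ r ∈ Icc (R1 - 1 / 4) (R1 + 1 / 4), (t, r) ∈ D

/-- The unit points of D with r ≤ ρ. -/
def Un (D : Set (ℝ × ℝ)) (ρ : ℝ) : Set E6 := {x | x ∈ Om D ∧ nq x = 1 ∧ x.2.1 ≤ ρ}

section
variable (M a : ℝ) (H : ℝ → ℝ) (k : ℕ) (D : Set (ℝ × ℝ)) (g : Tw)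

/-- The sizes μ of eta and ν of g - Kerr at the times in I. -/
def Sz (ρ : ℝ) (I : Set ℝ) (μ ν : ℝ) : Prop := 0 ≤ μ ∧ μ ≤ ν ∧ ∀ x ∈ Un D ρ, x.1 ∈ I →
  eta M a k g (shr H x) ≤ μ ^ 2 ∧ P354XE.Bd k (g - gin M a) (pj (shr H x)) ν

/-- The chart y and the parameters pq t of the slices. -/
structure Ny (R1 ti : ℝ) (n : ℕ) (C : ℝ → ℝ) (y : R4 → R4) (pq : ℝ → ℝ × ℝ) : Prop where
  pt : ∀ ρ ≥ R1, ∀ x ∈ Om D, x.2.1 ≤ ρ → ∀ μ ν, Sz M a H k D g ρ {x.1} μ ν →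
    Nid n y (pj (shr H x)) (C ρ * ν) ∧ ‖pq x.1 - (M, a)‖ ≤ C ρ * ν ∧ P354XE.Bd n
      (g - P354XE.pb y (gin (pq x.1).1 (pq x.1).2)) (pj (shr H x)) (C ρ * μ)
  tm : ∀ ρ ≥ R1, ∀ x ∈ Om D, x.2.1 ≤ ρ → ∀ ν, Sz M a H k D g ρ (Iic (x.1 + 1)) ν ν →
    |(y (pj (shr H x))).1 - (shr H x).1| ≤ C ρ * ν * (1 + (x.1 - ti))

/-- The final parameters p; the time is that of the chart y. -/
structure Np (R1 ti c0 C e0 E : ℝ) (y : R4 → R4) (pq : ℝ → ℝ × ℝ) (p : ℝ × ℝ) : Prop where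
  crude : ‖p - (M, a)‖ ≤ C * E
  ini : ∀ Q, Ta (Un D (R1 + 1)) (fun x => (y (pj (shr H x))).1) (fun x => eta M a k g (shr H x))
    c0 ti Q → ‖p - (M, a)‖ ≤ C * (e0 + Q)
  fin : ∀ x ∈ Om D, x.2.1 = R1 → ∀ A Q,
    Pa (Un D (R1 + 1)) (fun x => (y (pj (shr H x))).1) (fun x => eta M a k g (shr H x)) e0 c0
      (y (pj (shr H x))).1 A →
    Ta (Un D (R1 + 1)) (fun x => (y (pj (shr H x))).1) (fun x => eta M a k g (shr H x)) c0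
      (y (pj (shr H x))).1 Q → ‖pq x.1 - p‖ ≤ C * (A + Q)

end

/-- NC: the near chart. E is the a priori size, and e0 the size at the times up to ti + 2 c0. -/
def NC : Prop := ∀ (M a r1 R1 ti : ℝ) (H : ℝ → ℝ) (n : ℕ), a ≠ 0 → |a| < M → rm M a < r1 →
  r1 + 1 ≤ R1 → 10 * M + 10 ≤ R1 → ContDiff ℝ ∞ H → (∀ r ≤ R1, H r = 0) →
  (∀ r ∈ Icc R1 (R1 + 1), |H r| ≤ 2) → ∃ k, ∃ c0 ≥ (0 : ℝ), ∃ C : ℝ → ℝ, Monotone C ∧ ∀ Rs,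
    ∃ E1 > 0, ∀ D g, ∀ E ∈ Icc 0 E1, ∀ e0 ∈ Icc 0 E, Rg r1 R1 Rs ti D →
      (∀ x ∈ Om D, ∃ W, Lv g W ∧ pj (shr H x) ∈ W) →
      (∀ x ∈ Om D, x.2.1 = R1 → Ad M g eT (pj (shr H x)) ∧ zN M g eT (pj (shr H x)) = eT) →
      Sz M a H k D g Rs univ E E → Sz M a H k D g (R1 + 1) (Iic (ti + 2 * c0)) e0 e0 →
      ∃ y pq p, Ny M a H k D g R1 ti n C y pq ∧ Np M a H k D g R1 ti c0 (C R1) e0 E y pq p

/-- Constants which depend on the radius may be taken monotone. -/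
theorem mono_env {P : ℝ → ℝ → ℝ → Prop} (h : ∀ ρ, ∃ C, ∃ e > 0, P ρ C e)
    (m : ∀ ρ C e ρ' C' e', P ρ C e → ρ' ≤ ρ → C ≤ C' → 0 < e' → e' ≤ e → P ρ' C' e') :
    ∃ C : ℝ → ℝ, Monotone C ∧ (∀ ρ, 1 ≤ C ρ) ∧ ∀ R, ∃ e > 0, ∀ ρ ≤ R, P ρ (C ρ) e := by
  choose C e he hP using h
  have k : ∀ n : ℕ, (Finset.range (n + 1)).Nonempty := fun n => ⟨0, by simp⟩
  refine ⟨fun ρ => max 1 ((Finset.range (⌈ρ⌉₊ + 1)).sup' (k _) fun i => C i), fun ρ σ l =>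
    max_le_max le_rfl (Finset.sup'_mono _ (Finset.range_mono (by
      have := Nat.ceil_mono l; omega)) _), fun _ => le_max_left _ _, fun R =>
    ⟨(Finset.range (⌈R⌉₊ + 1)).inf' (k _) fun i => e i, ?_, fun ρ l => ?_⟩⟩
  · exact (Finset.lt_inf'_iff _).2 fun i _ => he i
  · refine m _ _ _ _ _ _ (hP ⌈ρ⌉₊) (Nat.le_ceil ρ) (le_max_of_le_right
      (Finset.le_sup' (fun i : ℕ => C i) (by simp))) ((Finset.lt_inf'_iff _).2 fun i _ => he i)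
      (Finset.inf'_le (fun i : ℕ => e i) (Finset.mem_range.2 ?_))
    have := Nat.ceil_mono l
    omega

end Vale.Agent.P354MG
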