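import Vale.Agent.P354MG.Gp
import Vale.Agent.P354XD.UniS
import Vale.Agent.P354YA.Rix

/-!
Graded domination: Gronwall, transport, reindexing, functions of families, comparison with the
norms of the iterated derivatives.
-/

open scoped ContDiff
open Set Filter Topology

namespace Vale.Agent.P354MG

open Vale.Agent.P354XG hiding Dom Dom0 Bd bdSub domI Keeps Low dom0_mk dom0_zero dom0_cst dom_of
  dom_zero dom_cst bd_alg dom_sum dom0_sum keeps_pd keeps_zero keeps_sum bd_closure dom_pb_aff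
  bd_fn bd_par Conn gron gron0 dom_of_sys dom_sub_ev0
open Vale.Agent.P354XD hiding Sml
open Vale.Agent.P354YA (Rx)

variable {J E : Type} [NormedAddCommGroup E] [NormedSpace ℝ E] {F : Filter J} {K : J → Set E}
  [Gr F] {μ ν : ℕ → J → ℝ} {a b : Sm (nb F K)}

variable (F K) in
/-- The sets K j are connected to the base points, uniformly for fixed θ. -/
def Conn (x0 : J → E) : Prop := ∀ᶠ k in atTop, ∀ θ, P354XG.Conn (ph F k θ) K x0

theorem conn_old {x0 : J → E} (h : P354XG.Conn F K x0) : Conn F K x0 := by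
  obtain ⟨n, L, h⟩ := h
  exact (evk h).mono fun _ h θ => ⟨n, L, h θ⟩

variable (F K) in
/-- The sets K j are swept out from K0 j in the direction of d, uniformly for fixed θ. -/
def Rays (K0 : J → Set E) (d : E) : Prop := ∀ᶠ k in atTop, ∀ θ, Ray (ph F k θ) K K0 d

theorem rays_old {K0 : J → Set E} {d : E} (h : Ray F K K0 d) : Rays F K K0 d := by
  obtain ⟨L, h⟩ := h
  exact (evk h).mono fun _ h θ => ⟨L, h θ⟩

section sys
variable {ι : Type} [Fintype ι]

/-- Transport: a linear system in the direction of d, small near K0, is small. -/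
theorem tg {K0 : J → Set E} {d : E} (hμ : Wgt μ) (hr : Rays F K K0 d) (hs : ∀ᶠ j in F, K0 j ⊆ K j)
    (X : ι → Sm (nb F K))
    (hD : ∀ i, ∃ M : ι → Sm (nb F K), (∀ k, Bd (M k)) ∧ Dom μ (pd d (X i) - ∑ k, M k * X k))
    (h0 : ∀ i, Dom μ (res hs (X i))) (i : ι) : Dom μ (X i) := by
  choose M hM he using hD
  simp only [dom_iff] at hM he h0 ⊢
  filter_upwards [ev_gr2.2 hr, evj hs, eventually_all.2 fun i => (eventually_all.2 (hM i)).and
    ((he i).and ((h0 i).and ((lf_sys d (X i) (M i) X).and (lf_pb (mp_res hs) (X i)))))]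
    with q h1 h2 h θ
  refine dn_tg (wgt_cw hμ _) (h1 θ) (h2 θ) (fun i => lf q.2 θ (X i))
    (fun i k => lf q.2 θ (M i k)) (fun i k => (h i).1 k θ)
    (fun i => (h i).2.2.2.1 θ ▸ (h i).2.1 θ) (fun i => ?_) i
  exact (h i).2.2.2.2 θ (mp_res (h2 θ)) ▸ (h i).2.2.1 θ

variable [FiniteDimensional ℝ E] {x0 : J → E}

theorem dom_of_sys (hμ : Wgt μ) (X : ι → Sm (nb F K)) (M : E → ι → ι → Sm (nb F K))
    (hM : ∀ v i k, Bd (M v i k)) (he : ∀ v i, Dom μ (pd v (X i) - ∑ k, M v i k * X k))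
    (h0 : ∀ i, Dom0 μ (X i)) (i : ι) : Dom μ (X i) := by
  let e := Module.finBasis ℝ E
  simp only [dom_iff, dom0_iff] at hM he h0 ⊢
  filter_upwards [eventually_all.2 h0, eventually_all.2 fun l => eventually_all.2 fun i =>
    (eventually_all.2 (hM (e l) i)).and ((he (e l) i).and (lf_sys (e l) (X i) (M (e l) i) X))]
    with q h1 h θ
  exact dn_of_sys e (wgt_cw hμ _) (fun i => lf q.2 θ (X i)) (fun l i k => lf q.2 θ (M (e l) i k))
    (fun l i k => (h l i).1 k θ) (fun l i => (h l i).2.2 θ ▸ (h l i).2.1 θ) (fun i => h1 i θ) i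

theorem gron0 (hμ : Wgt μ) (hc : Conn F K x0) (hx : ∀ᶠ j in F, x0 j ∈ K j) (X : ι → Sm (nb F K))
    (M : E → ι → ι → Sm (nb F K)) (hM : ∀ v i k, Dom0 (w1 J) (M v i k))
    (he : ∀ v i, Dom0 μ (pd v (X i) - ∑ k, M v i k * X k))
    (h0 : ∀ i, Dom0 μ (ev0 x0 hx (X i) : Sm (nb F K))) (i : ι) : Dom0 μ (X i) := by
  let e := Module.finBasis ℝ E
  simp only [dom0_iff] at hM he h0 ⊢
  filter_upwards [ev_gr2.2 hc, evj hx,
    eventually_all.2 fun i => (h0 i).and (lf_pb (mp_ev (K' := K) x0 hx) (X i)),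
    eventually_all.2 fun l => eventually_all.2 fun i =>
    (eventually_all.2 (hM (e l) i)).and ((he (e l) i).and (lf_sys (e l) (X i) (M (e l) i) X))]
    with q h1 h2 h3 h θ
  have w := wgt_cw hμ q.2
  refine P354XG.gron0 w (h1 θ) (h2 θ) (fun i => lf q.2 θ (X i))
    (fun v i k => ∑ l, algebraMap ℂ _ (e.repr v l : ℝ) * lf q.2 θ (M (e l) i k))
    (fun v i k => P354XG.dom0_sum wgt_one _ fun l _ =>
      P354XG.Dom0.bmul wgt_one (P354XG.bd_alg _).dom0 ((h l i).1 k θ)) (fun v i => ?_)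
    (fun i => (h3 i).2 θ (mp_ev x0 (h2 θ)) ▸ (h3 i).1 θ) i
  have := P354XG.dom0_sum w Finset.univ fun l _ => P354XG.Dom0.bmul w
    (P354XG.bd_alg (e.repr v l : ℝ)).dom0 ((h l i).2.2 θ ▸ (h l i).2.1 θ)
  simp only [mul_sub, Finset.sum_sub_distrib, Finset.mul_sum] at this
  rw [pd_basis e]
  simp only [Finset.sum_mul, mul_assoc]
  rwa [Finset.sum_comm (s := Finset.univ) (t := Finset.univ)
    (f := fun k l => algebraMap ℂ _ (e.repr v l : ℝ) * (lf q.2 θ (M (e l) i k) * lf q.2 θ (X k)))]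

/-- GRON. -/
theorem gron (hμ : Wgt μ) (hc : Conn F K x0) (hx : ∀ᶠ j in F, x0 j ∈ K j) (X : ι → Sm (nb F K))
    (hD : ∀ v i, ∃ M : ι → Sm (nb F K), (∀ k, Bd (M k)) ∧ Dom μ (pd v (X i) - ∑ k, M k * X k))
    (h0 : ∀ i, Dom0 μ (ev0 x0 hx (X i) : Sm (nb F K))) (i : ι) : Dom μ (X i) := by
  choose M hM he using hD
  exact dom_of_sys hμ X M hM he
    (gron0 hμ hc hx X M (fun v i k => (hM v i k).dom0) (fun v i => (he v i).dom0) h0) i

/-- A family with small derivatives is close to its value at the base point. -/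
theorem dom_sub_ev0 (hμ : Wgt μ) (hc : Conn F K x0) (hx : ∀ᶠ j in F, x0 j ∈ K j)
    (ha : ∀ v, Dom μ (pd v a)) : Dom μ (a - ev0 x0 hx a) := by
  refine gron hμ hc hx (fun _ : Unit => a - ev0 x0 hx a) (fun v _ => ⟨0, fun _ =>
    dom_zero wgt_one, ?_⟩) (fun _ => ?_) ()
  · simpa [D_sub, pd_ev0] using ha v
  · have : (ev0 x0 hx (ev0 x0 hx a : Sm (nb F K)) : Sm (nb F K)) = ev0 x0 hx a := by
      rw [ev0_eq x0 hx a]; exact Mp.pb_cst _ _
    rw [map_sub, this, sub_self]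
    exact dom0_zero hμ

end sys

/-! ### Functions of families -/

omit [Gr F] in
theorem pb_fn {V : Type} [NormedAddCommGroup V] [NormedSpace ℝ V] {Q : J → Set V} {X : J × E → V}
    (h : Mp F K Q X) {φ : V → ℂ} (s : ∀ᶠ p : J × V in nb F Q, ContDiffAt ℝ ∞ φ p.2) :
    gm _ (fun p => φ (X p)) = h.pb (fn φ s) := by
  have e : SmF (nb F K) fun p => φ (X p) := h.smF (f := fun p => φ p.2) s
  exact ((rs_gm e).ext (rs_mk e) EventuallyEq.rfl).trans (h.pb_mk (fun p => φ p.2) s).symm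

section cmp
variable {ι : Type} [Fintype ι] {Q : J → Set (ι → ℂ)}

/-- The values of finitely many families. -/
noncomputable def vec (u : ι → Sm (nb F K)) (p : J × E) : ι → ℂ := fun i => rep (u i) p

omit [Gr F] in
theorem mp_vec (u : ι → Sm (nb F K)) (h : ∀ᶠ j in F, ∀ x ∈ K j, vec u (j, x) ∈ Q j) :
    Mp F K Q (vec u) :=
  ⟨(eventually_all.2 fun i => rep_sm (u i)).mono fun _ h => contDiffAt_pi.2 h, h⟩

theorem lin_pi (l : (ι → ℂ) →L[ℝ] ℂ) :
    ∃ α β : ι → ℂ, ∀ z, l z = ∑ i, (α i * z i + β i * starRingEnd ℂ (z i)) := by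
  classical
  refine ⟨fun i => (l (Pi.single i 1) - Complex.I * l (Pi.single i Complex.I)) / 2,
    fun i => (l (Pi.single i 1) + Complex.I * l (Pi.single i Complex.I)) / 2, fun z => ?_⟩
  conv_lhs => rw [← Finset.univ_sum_single z, map_sum]
  refine Finset.sum_congr rfl fun i _ => ?_
  have e : (Pi.single i (z i) : ι → ℂ) =
      (z i).re • (Pi.single i 1 : ι → ℂ) + (z i).im • (Pi.single i Complex.I : ι → ℂ) := by
    rw [← Pi.single_smul, ← Pi.single_smul, ← Pi.single_add]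
    simp
  rw [e, map_add, map_smul, map_smul, Complex.real_smul, Complex.real_smul,
    Complex.re_eq_add_conj, Complex.im_eq_sub_conj]
  field_simp
  linear_combination (l (Pi.single i Complex.I) * (z i - starRingEnd ℂ (z i))) * Complex.I_sq

omit [Gr F] in
theorem co_vec (l : (ι → ℂ) →L[ℝ] ℂ) : ∃ α β : ι → ℂ, ∀ {Q : J → Set (ι → ℂ)}
    {u : ι → Sm (nb F K)} (h : Mp F K Q (vec u)),
      h.co l = ∑ i, (algebraMap ℂ _ (α i) * u i + algebraMap ℂ _ (β i) * cj (u i)) := by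
  obtain ⟨α, β, e⟩ := lin_pi l
  exact ⟨α, β, fun h => (rs_mk (h.sm_co l)).ext (Rs.sum _ fun i => ((rs_alg _).mul (rs_rep _)).add
    ((rs_alg _).mul (rs_rep _).cj)) (Eventually.of_forall fun p => e _)⟩

theorem tame_vec {u : ι → Sm (nb F K)} (h : Mp F K Q (vec u)) (hu : ∀ i v, Bd (pd v (u i))) :
    Tame h := fun l v => by
  obtain ⟨α, β, e⟩ := co_vec (F := F) (K := K) l
  rw [e h, map_sum]
  refine dom_sum wgt_one _ fun i _ => ?_
  rw [D_add, D_mul, D_mul, D_alg, D_alg, mul_zero, mul_zero, add_zero, add_zero, ← cj_pd]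
  exact ((bd_alg _).bmul wgt_one (hu i v)).add wgt_one ((bd_alg _).bmul wgt_one (hu i v).cj)

/-- A function of finitely many families. -/
noncomputable def cmp (φ : (ι → ℂ) → ℂ) (u : ι → Sm (nb F K)) : Sm (nb F K) :=
  gm _ fun p => φ (vec u p)

variable {φ : (ι → ℂ) → ℂ} {O : Set (ι → ℂ)} {u u' : ι → Sm (nb F K)}

omit [Gr F] in
theorem rs_cmp (hO : IsOpen O) (hφ : ContDiffOn ℝ ∞ φ O)
    (h : ∀ᶠ j in F, ∀ x ∈ K j, vec u (j, x) ∈ O) : Rs (cmp φ u) fun p => φ (vec u p) :=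
  rs_gm ((mp_vec (Q := fun _ => O) u h).smF (f := fun p => φ p.2) (ev_nb.2 (Eventually.of_forall
    fun _ _ hx => (hO.eventually_mem hx).mono fun _ hy => hφ.contDiffAt (hO.mem_nhds hy))))

variable [FiniteDimensional ℝ E]

theorem bd_cmp (hO : IsOpen O) (hφ : ContDiffOn ℝ ∞ φ O) (hu : ∀ i v, Bd (pd v (u i)))
    (hK : ∀ᶠ k in atTop, ∀ θ, ∃ C, IsCompact C ∧ C ⊆ O ∧
      ∀ᶠ j in ph F k θ, ∀ x ∈ K j, vec u (j, x) ∈ C) : Bd (cmp φ u) := by
  have h := mp_vec (Q := fun j => (fun x => vec u (j, x)) '' K j) u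
    (Eventually.of_forall fun _ _ hx => mem_image_of_mem _ hx)
  obtain ⟨s, hs⟩ := bd_fn (F := F) (K := fun j => (fun x => vec u (j, x)) '' K j) hO
    (hK.mono fun k h θ => (h θ).imp fun C h => ⟨h.1, h.2.1, h.2.2.mono fun j h =>
      image_subset_iff.2 h⟩) hφ
  rw [cmp, pb_fn h s]
  exact hs.pb h (tame_vec h hu) wgt_one

end cmp

/-! ### Close maps -/

section lip
variable {E' : Type} [NormedAddCommGroup E'] [NormedSpace ℝ E'] {K' : J → Set E'}
  {X Y : J × E' → E} [FiniteDimensional ℝ E] [FiniteDimensional ℝ E']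

theorem dom_pd_pb (h : Mp F K' K X) (ht : Tame h) (hμ : Wgt μ) {v : E'}
    (e : ∀ l, Dom μ (pd v (h.co l))) (ha : ∀ w, Bd (pd w a)) : Dom μ (pd v (h.pb a)) := by
  rw [h.pd_pb (Module.finBasis ℝ E)]
  exact dom_sum hμ _ fun i _ => mul_comm (h.pb _) _ ▸ ((ha _).pb h ht wgt_one).bmul hμ (e _)

/-- The pull backs along close maps are close. -/
theorem pb_sub (h1 : Mp F K' K X) (h2 : Mp F K' K Y) (ht : Tame h2) (hμ : Wgt μ)
    (hl : Le F μ (w1 J)) (hs : ∀ᶠ j in F, ∀ x ∈ K' j, segment ℝ (Y (j, x)) (X (j, x)) ⊆ K j)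
    (e : ∀ l, Dom μ (h1.co l - h2.co l)) (ha : ∀ w, Bd (pd w a)) : Dom μ (h1.pb a - h2.pb a) := by
  let Z : J × (ℝ × E') → E := fun p => Y (p.1, p.2.2) + p.2.1 • (X (p.1, p.2.2) - Y (p.1, p.2.2))
  have u : ∀ {P : J × E' → Prop}, (∀ᶠ p in nb F K', P p) → ∀ᶠ p in nb F (cyl K'), P (p.1, p.2.2) :=
    fun h => (mp_up.ev h).mono fun p h => by simpa [aff] using h
  have h : Mp F (cyl K') K Z := by
    refine ⟨?_, hs.mono fun j h x hx => h _ hx.2 ?_⟩
    · filter_upwards [u h1.sm, u h2.sm] with p e1 e2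
      have e1 := ContDiffAt.comp p.2 e1 contDiffAt_snd
      have e2 := ContDiffAt.comp p.2 e2 contDiffAt_snd
      exact e2.add (contDiffAt_fst.smul (e1.sub e2))
    · rw [segment_eq_image']
      exact ⟨x.1, hx.1, rfl⟩
  have ru : ∀ {b : Sm (nb F K')} {f : J × E' → ℂ}, Rs b f → Rs (up b) fun p => f (p.1, p.2.2) :=
    fun {b f} r => (mp_up.rep_pb b).trans ((u r).mono fun p h => by simpa [aff] using h)
  have c : ∀ l, h.co l = up (h2.co l) + par * up (h1.co l - h2.co l) := fun l =>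
    (rs_mk (h.sm_co l)).ext ((ru (rs_mk (h2.sm_co l))).add (Rs.mul rep_par
      (ru ((rs_mk (h1.sm_co l)).sub (rs_mk (h2.sm_co l)))))) (Eventually.of_forall fun p => by
        simp [Z])
  have t : Tame h := fun l v => by
    rw [c, D_add, show v = (v.1, v.2) from rfl, pd_up]
    exact (ht l _).up.add wgt_one ((bd_par.bmul wgt_one ((e l).mono hl).up).pd _)
  have d := (dom_pd_pb h t hμ (v := (1, 0)) (fun l => ?_) ha).int hμ
  · rw [int_pd] at d
    have e1 : lev1 (h.pb a) = h1.pb a := Rs.ext (rep_lev1 _) (h1.rep_pb a)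
      (((mp_lev (right_mem_Icc.2 zero_le_one)).ev (h.rep_pb a)).mono fun p h => by
        simpa [aff, Z] using h)
    have e0 : lev0 (h.pb a) = h2.pb a := Rs.ext (rep_lev0 _) (h2.rep_pb a)
      (((mp_lev (left_mem_Icc.2 zero_le_one)).ev (h.rep_pb a)).mono fun p h => by
        simpa [aff, Z] using h)
    rwa [e1, e0] at d
  · have z : ∀ b : Sm (nb F K'), pd (0 : E') b = 0 := fun b => by
      rw [pd_basis (Module.finBasis ℝ E')]; simp
    rw [c, D_add, D_mul, pd_up, pd_up, z, z, pd_par]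
    simpa using (e l).up

end lip

/-- Functions of close families are close. -/
theorem cmp_sub [FiniteDimensional ℝ E] {ι : Type} [Fintype ι] {φ : (ι → ℂ) → ℂ}
    {O : Set (ι → ℂ)} {u u' : ι → Sm (nb F K)} (hO : IsOpen O) (hφ : ContDiffOn ℝ ∞ φ O)
    (hμ : Wgt μ) (hl : Le F μ (w1 J)) (hu : ∀ i v, Bd (pd v (u' i))) (e : ∀ i, Dom μ (u i - u' i))
    (hK : ∀ᶠ k in atTop, ∀ θ, ∃ C, IsCompact C ∧ C ⊆ O ∧
      ∀ᶠ j in ph F k θ, ∀ x ∈ K j, segment ℝ (vec u' (j, x)) (vec u (j, x)) ⊆ C) :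
    Dom μ (cmp φ u - cmp φ u') := by
  let Q : J → Set (ι → ℂ) := fun j => ⋃ x ∈ K j, segment ℝ (vec u' (j, x)) (vec u (j, x))
  have h1 := mp_vec (Q := Q) u
    (Eventually.of_forall fun _ _ hx => mem_biUnion hx (right_mem_segment _ _ _))
  have h2 := mp_vec (Q := Q) u'
    (Eventually.of_forall fun _ _ hx => mem_biUnion hx (left_mem_segment _ _ _))
  obtain ⟨s, hs⟩ := bd_fn (F := F) (K := Q) hO
    (hK.mono fun k h θ => (h θ).imp fun C h => ⟨h.1, h.2.1, h.2.2.mono fun j h =>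
      iUnion₂_subset h⟩) hφ
  rw [cmp, cmp, pb_fn h1 s, pb_fn h2 s]
  refine pb_sub h1 h2 (tame_vec h2 hu) hμ hl (Eventually.of_forall fun j x hx =>
    subset_biUnion_of_mem (u := fun x => segment ℝ (vec u' (j, x)) (vec u (j, x))) hx)
    (fun l => ?_) hs.pd
  obtain ⟨α, β, c⟩ := co_vec (F := F) (K := K) l
  rw [c h1, c h2, ← Finset.sum_sub_distrib]
  refine dom_sum hμ _ fun i _ => ?_
  rw [add_sub_add_comm, ← mul_sub, ← mul_sub, ← map_sub]
  exact ((bd_alg _).bmul hμ (e i)).add hμ ((bd_alg _).bmul hμ (e i).cj)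

/-! ### Change of the index set -/

section rx
variable {J' : Type} {F' : Filter J'} [Gr F'] {K' : J' → Set E} {κ : J' → J}

variable (F F') in
/-- The map κ of the index sets respects the gradings. -/
def Grm (κ : J' → J) : Prop := ∃ c, ∀ k θ', ∃ θ, Tendsto κ (ph F' (k + c) θ') (ph F k θ)

omit [NormedAddCommGroup E] [NormedSpace ℝ E] in
theorem Grm.tendsto (h : Grm F F' κ) : Tendsto κ F' F := fun P hP => by
  obtain ⟨c, h⟩ := h
  obtain ⟨k, e⟩ := (Gr.ev (F := F) fun j => j ∈ P).1 hP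
  exact (Gr.ev (F := F') fun j => κ j ∈ P).2 ⟨k + c, fun θ' => by
    obtain ⟨θ, h⟩ := h k θ'
    exact h.eventually (e θ)⟩

omit [NormedSpace ℝ E] in
theorem Grm.rx (h : Grm F F' κ) (hK : ∀ᶠ j in F', K' j ⊆ K (κ j)) : Rx (nb F' K') (nb F K) κ :=
  fun P hP => by
    have h1 : ∀ᶠ p in nb F K, p ∈ P := hP
    exact ev_nb.2 (((h.tendsto.eventually (ev_nb.1 h1)).and hK).mono fun j h x hx =>
      h.1 x (h.2 hx))

theorem pw_rx (w : List E) (f : J × E → ℂ) (p : J' × E) :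
    pw w (fun p : J' × E => f (κ p.1, p.2)) p = pw w f (κ p.1, p.2) := by
  induction w generalizing f with
  | nil => rfl
  | cons v w ih => exact ih (pdF v f)

theorem Dom.rix (ha : Dom μ a) (hμ : Wgt μ) (h : Grm F F' κ) (hK : ∀ᶠ j in F', K' j ⊆ K (κ j)) :
    Dom (fun k j => μ k (κ j)) ((h.rx hK).rix a) := by
  refine dom_of_tn ((h.rx hK).rep a) ?_
  obtain ⟨c, h⟩ := h
  obtain ⟨c1, ha⟩ := ev_gr.1 ha
  obtain ⟨c2, hK⟩ := ev_gr.1 (evj hK)
  refine ev_gr.2 ⟨c + c1 + c2, fun n k e θ' w hw => ?_⟩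
  obtain ⟨k, rfl⟩ : ∃ k', k = k' + c := ⟨k - c, by omega⟩
  obtain ⟨θ, h⟩ := h k θ'
  obtain ⟨C, hC, ha⟩ := ha n k (by omega) θ w hw
  refine ⟨C, hC, ?_⟩
  filter_upwards [h.eventually ha, hK n _ (by omega) θ'] with j h1 h2 x hx
  rw [pw_rx]
  exact (h1 x (h2 hx)).trans (mul_le_mul_of_nonneg_left (hμ.mono _ _ _ (Nat.le_add_right k c)) hC)

theorem Dom0.rix (ha : Dom0 μ a) (hμ : Wgt μ) (h : Grm F F' κ)
    (hK : ∀ᶠ j in F', K' j ⊆ K (κ j)) : Dom0 (fun k j => μ k (κ j)) ((h.rx hK).rix a) := by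
  have r := (h.rx hK).rep a
  obtain ⟨c, h⟩ := h
  obtain ⟨k, ha⟩ := ha.exists
  obtain ⟨c2, hK⟩ := eventually_atTop.1 (evk hK)
  refine dom0_of ⟨fun _ _ => hμ.nonneg _ _, fun _ _ _ e => hμ.mono _ _ _ e⟩ r (k + c + c2)
    fun θ' => ?_
  obtain ⟨θ, h⟩ := h k θ'
  obtain ⟨C, hC, ha⟩ := ha θ
  refine ⟨C, hC, ?_⟩
  filter_upwards [(h.eventually ha).filter_mono (Gr.anti θ' _ _ (Nat.le_add_right _ c2)),
    hK _ (Nat.le_add_left c2 _) θ'] with j h1 h2 x hx
  exact (h1 x (h2 hx)).trans (mul_le_mul_of_nonneg_left (hμ.mono _ _ _ (by omega)) hC)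

theorem Low.rix (ha : Low a) (h : Grm F F' κ) (hK : ∀ᶠ j in F', K' j ⊆ K (κ j)) :
    Low ((h.rx hK).rix a) := by
  refine low_of ((h.rx hK).rep a) ?_
  obtain ⟨c, h⟩ := h
  obtain ⟨k, ha⟩ := ha.exists
  filter_upwards [evk hK, eventually_ge_atTop (k + c)] with k' hK e θ'
  obtain ⟨θ, h⟩ := h k θ'
  obtain ⟨C, hC, ha⟩ := ha θ
  refine ⟨C, hC, ?_⟩
  filter_upwards [(h.eventually ha).filter_mono (Gr.anti θ' _ _ e), hK θ'] with j h1 h2 x hx
  exact h1 x (h2 hx)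

end rx

/-! ### The Hensel structure -/

section hen
variable [FiniteDimensional ℝ E]

theorem rt_bd (hμ : Wgt μ) (h0 : Sml F μ) (ha : Dom μ a) (hb : Dom μ b) :
    (opsS rfl).ok a b ∧ Bd ((opsS rfl).rt a b) := by
  have d : 0 < del / 2 := half_pos del_pos
  have e := (ha.ev_lt h0 _ d).and (hb.ev_lt h0 _ d)
  have o : ∀ {a : Sm (nb F K)}, Dom μ a → ∀ᶠ p in nb F K, ‖rep a p‖ < del := fun ha =>
    ev_of_on (P := fun z => ‖z‖ < del) (isOpen_lt continuous_norm continuous_const)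
      (ha.ev_lt h0 _ del_pos)
  refine ⟨(o ha).and (o hb), ?_⟩
  refine bd_cmp (φ := fun z : Fin 2 → ℂ => psi (z 0, z 1)) (u := ![a, b])
    (O := Metric.ball 0 del) Metric.isOpen_ball (fun z hz => ?_) (fun i v => ?_) ?_
  · rw [mem_ball_zero_iff, pi_norm_lt_iff del_pos] at hz
    exact (ContDiffAt.comp (g := psi) z (psi_spec ⟨hz 0, hz 1⟩).1 (by fun_prop)).contDiffWithinAt
  · fin_cases i
    exacts [(ha.bd h0 hμ).pd v, (hb.bd h0 hμ).pd v]
  · refine (evk e).mono fun k h θ => ⟨Metric.closedBall 0 (del / 2), isCompact_closedBall _ _,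
      Metric.closedBall_subset_ball (half_lt_self del_pos), (h θ).mono fun j h x hx => ?_⟩
    rw [mem_closedBall_zero_iff, pi_norm_le_iff_of_nonneg d.le]
    intro i
    fin_cases i
    exacts [(h.1 x hx).le, (h.2 x hx).le]

variable (K) in
/-- The small elements are the families which are dominated by a weight which tends to zero. -/
noncomputable def henG (hμ : Wgt μ) (h0 : Sml F μ) : Hen (cj : Sm (nb F K) →+* _) where
  B := bdSub F K
  I := { carrier := {a | Dom μ a}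
         add_mem' := fun ha hb => Dom.add hμ ha hb
         zero_mem' := dom_zero hμ
         neg_mem' := fun ha => Dom.neg hμ ha }
  le _ h := Dom.bd h h0 hμ
  mul _ hb _ ha := Dom.bmul hμ hb ha
  cB _ h := Dom.cj h
  cI _ h := Dom.cj h
  inv _ h := (Dom.low_one_add h h0).inv (bd_one.add wgt_one (Dom.bd h h0 hμ))
  root _ ha _ hb := ⟨_, (rt_bd hμ h0 ha hb).2, (opsS rfl).eq (rt_bd hμ h0 ha hb).1⟩

theorem henG_cg (hμ : Wgt μ) (h0 : Sml F μ) :
    (henG K hμ h0).Cg a b ↔ Bd b ∧ Dom μ (a - b) := Iff.rfl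

theorem fit_G (hμ : Wgt μ) (h0 : Sml F μ) : (opsS rfl).Fit (henG K hμ h0) :=
  fun _ ha _ hb => rt_bd hμ h0 ha hb

end hen

end Vale.Agent.P354MG
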