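import Vale.Agent.P354MG.Gd

/-!
Graded domination: inverses, small weights, pull backs, integrals, Gronwall.
-/

open scoped ContDiff
open Set Filter Topology

namespace Vale.Agent.P354MG

open Vale.Agent.P354XG hiding Dom Dom0 Bd bdSub domI Keeps Low dom0_mk dom0_zero dom0_cst dom_of
  dom_zero dom_cst bd_alg dom_sum dom0_sum keeps_pd keeps_zero keeps_sum bd_closure dom_pb_aff
  bd_fn bd_par Conn gron gron0 dom_of_sys dom_sub_ev0

variable {J E : Type} [NormedAddCommGroup E] [NormedSpace ℝ E] {F : Filter J} {K : J → Set E}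
  [Gr F] {μ ν : ℕ → J → ℝ} {a b : Sm (nb F K)}

/-- The ring generated by the bounded families and by finitely many generators with bounded
values, whose derivatives are in this ring, consists of bounded families. -/
theorem bd_closure [FiniteDimensional ℝ E] (S : Set (Sm (nb F K))) (hS : S.Finite)
    (h0 : ∀ s ∈ S, Dom0 (w1 J) s)
    (hd : ∀ s ∈ S, ∀ v, pd v s ∈ Subring.closure (S ∪ {a | Bd a})) :
    ∀ s ∈ Subring.closure (S ∪ {a | Bd a}), Bd s := by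
  have key : ∀ y ∈ Subring.closure (S ∪ {a | Bd a}), ∀ᶠ q in gr, ∀ θ,
      (∀ s ∈ S, DN q.1 (w1 J) (lf q.2 θ s)) → DN q.1 (w1 J) (lf q.2 θ y) := by
    intro y hy
    induction hy using Subring.closure_induction with
    | mem x hx =>
      rcases hx with hx | hx
      · exact Eventually.of_forall fun q θ h => h x hx
      · exact (dom_iff.1 hx).mono fun q h θ _ => h θ
    | zero => exact (dom_iff.1 (dom_zero wgt_one)).mono fun q h θ _ => h θ
    | one => exact (dom_iff.1 bd_one).mono fun q h θ _ => h θ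
    | add x y _ _ h1 h2 =>
      filter_upwards [h1, h2, lf_add x y] with q h1 h2 h3 θ h
      rw [h3]; exact (h1 θ h).add wgt_one (h2 θ h)
    | neg x _ h1 =>
      filter_upwards [h1, lf_sub 0 x, lf_zero (F := F) (K := K)] with q h1 h2 h3 θ h
      rw [← zero_sub, h2, h3, zero_sub]; exact (h1 θ h).neg wgt_one
    | mul x y _ _ h1 h2 =>
      filter_upwards [h1, h2, lf_mul x y] with q h1 h2 h3 θ h
      rw [h3]; exact DN.bmul wgt_one (h1 θ h) (h2 θ h)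
  let e := Module.finBasis ℝ E
  obtain ⟨c, hc⟩ := ev_gr.1 ((eventually_all_finite hS).2 fun s hs => (dom0_iff.1 (h0 s hs)).and
    (eventually_all.2 fun l => (key _ (hd s hs (e l))).and (lf_pd (e l) s)))
  have main : ∀ n k, n + c ≤ k → ∀ θ, ∀ s ∈ S, DN n (w1 J) (lf k θ s) := by
    intro n k
    induction n with
    | zero => exact fun h θ s hs => dn_zero_iff.2 ((hc 0 k h s hs).1 θ)
    | succ n ih =>
      intro h θ s hs
      have := hc n k (by omega) s hs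
      exact dn_basis e wgt_one (this.1 θ) fun l =>
        (this.2 l).2 θ ▸ (this.2 l).1 θ (ih (by omega) θ)
  intro s hs
  have m2 : ∀ᶠ q in gr, ∀ θ, ∀ s ∈ S, DN q.1 (w1 J) (lf q.2 θ s) := ev_gr.2 ⟨c, main⟩
  exact dom_iff.2 (((key s hs).and m2).mono fun q h θ => h.1 θ (h.2 θ))

/-- The values are bounded below. -/
def Low (a : Sm (nb F K)) : Prop :=
  ∀ᶠ k in atTop, ∀ θ, ∃ c > 0, ∀ᶠ j in ph F k θ, ∀ x ∈ K j, c ≤ ‖rep a (j, x)‖

theorem evk_of {P : J → Prop} (h : ∀ᶠ k in atTop, ∀ θ, ∀ᶠ j in ph F k θ, P j) : ∀ᶠ j in F, P j :=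
  (Gr.ev P).2 h.exists

theorem low_of {f : J × E → ℂ} (h : rep a =ᶠ[nb F K] f)
    (e : ∀ᶠ k in atTop, ∀ θ, ∃ c > 0, ∀ᶠ j in ph F k θ, ∀ x ∈ K j, c ≤ ‖f (j, x)‖) : Low a := by
  filter_upwards [e, evk (ev_nb_on h)] with k h1 h2 θ
  obtain ⟨c, hc, h1⟩ := h1 θ
  exact ⟨c, hc, (h1.and (h2 θ)).mono fun j h x hx => (h.2 x hx).symm ▸ h.1 x hx⟩

theorem low_old (h : P354XG.Low a) : Low a := by
  obtain ⟨c, hc, h⟩ := h
  exact (evk h).mono fun k h θ => ⟨c, hc, h θ⟩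

theorem low_alg {z : ℂ} (hz : z ≠ 0) : Low (algebraMap ℂ (Sm (nb F K)) z) :=
  low_of (rep_alg z) (Eventually.of_forall fun _ _ =>
    ⟨‖z‖, norm_pos_iff.2 hz, Eventually.of_forall fun _ _ _ => le_rfl⟩)

theorem low_one : Low (1 : Sm (nb F K)) := by
  simpa only [map_one] using low_alg (F := F) (K := K) one_ne_zero

theorem Low.mul (ha : Low a) (hb : Low b) : Low (a * b) := by
  refine low_of (rep_mul a b) ?_
  filter_upwards [ha, hb] with k h1 h2 θ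
  obtain ⟨c, hc, h1⟩ := h1 θ
  obtain ⟨c', hc', h2⟩ := h2 θ
  refine ⟨c * c', mul_pos hc hc', (h1.and h2).mono fun j h x hx => ?_⟩
  rw [Pi.mul_apply, norm_mul]
  exact mul_le_mul (h.1 x hx) (h.2 x hx) hc'.le (norm_nonneg _)

theorem Low.cj (ha : Low a) : Low (cj a) :=
  low_of (rep_cj a) (by simp only [Complex.norm_conj]; exact ha)

theorem Low.unit (h : Low a) : IsUnit a :=
  isUnit_of_ne (ev_of_on (P := fun z => z ≠ 0) isOpen_ne (evk_of (h.mono fun k h θ => by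
    obtain ⟨c, hc, h⟩ := h θ
    exact h.mono fun j h x hx => norm_pos_iff.1 (hc.trans_le (h x hx)))))

theorem Low.dom0 (h : Low a) (hb : a * b = 1) : Dom0 (w1 J) b := by
  filter_upwards [h, evk (ev_nb_on (rep_mul a b)), evk (ev_nb_on (rep_one (G := nb F K)))]
    with k h h2 h3 θ
  obtain ⟨c, hc, h⟩ := h θ
  refine ⟨c⁻¹, by positivity, ?_⟩
  filter_upwards [h, h2 θ, h3 θ] with j h1 h2 h3 x hx
  have e : ‖rep a (j, x)‖ * ‖rep b (j, x)‖ = 1 := by
    rw [← norm_mul, ← Pi.mul_apply, ← h2 x hx, hb, h3 x hx, norm_one]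
  rw [w1, mul_one, ← one_div, le_div_iff₀ hc, ← e, mul_comm]
  exact mul_le_mul_of_nonneg_right (h1 x hx) (norm_nonneg _)

theorem Low.bd_inv [FiniteDimensional ℝ E] (ha : Bd a) (h : Low a) (hb : a * b = 1) : Bd b := by
  have hb' : b ∈ Subring.closure ({b} ∪ {a | Bd a}) := Subring.subset_closure (Or.inl rfl)
  refine bd_closure {b} (finite_singleton b) (fun s hs => hs ▸ h.dom0 hb) (fun s hs v => ?_) b hb'
  rw [mem_singleton_iff.1 hs]
  have e := congrArg (pd v) hb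
  rw [D_mul, D_one] at e
  have : pd v b = -(b * b * pd v a) := by linear_combination b * e - pd v b * hb
  rw [this]
  exact neg_mem (mul_mem (mul_mem hb' hb') (Subring.subset_closure (Or.inr (ha.pd v))))

/-- A bounded family which is bounded below has a bounded inverse. -/
theorem Low.inv [FiniteDimensional ℝ E] (ha : Bd a) (h : Low a) : ∃ b, Bd b ∧ a * b = 1 := by
  obtain ⟨b, hb⟩ := h.unit.exists_right_inv
  exact ⟨b, h.bd_inv ha hb, hb⟩

/-- The inverse of a family with bounded values is bounded below. -/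
theorem low_of_mul (hb : Dom0 (w1 J) b) (e : a * b = 1) : Low a := by
  filter_upwards [hb, evk (ev_nb_on (rep_mul a b)), evk (ev_nb_on (rep_one (G := nb F K)))]
    with k h h2 h3 θ
  obtain ⟨C, hC, h⟩ := h θ
  refine ⟨(C + 1)⁻¹, by positivity, ?_⟩
  filter_upwards [h, h2 θ, h3 θ] with j h1 h2 h3 x hx
  have e : ‖rep a (j, x)‖ * ‖rep b (j, x)‖ = 1 := by
    rw [← norm_mul, ← Pi.mul_apply, ← h2 x hx, e, h3 x hx, norm_one]
  have := h1 x hx
  rw [w1, mul_one] at this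
  rw [← one_div, div_le_iff₀ (by positivity), ← e]
  exact mul_le_mul_of_nonneg_left (by linarith) (norm_nonneg _)

variable (F) in
/-- A weight which tends to zero. -/
def Sml (μ : ℕ → J → ℝ) : Prop := ∀ᶠ k in atTop, ∀ θ, Tendsto (μ k) (ph F k θ) (𝓝 0)

theorem Sml.add (h : Sml F μ) (h' : Sml F ν) : Sml F (μ + ν) :=
  (h.and h').mono fun k h θ => by
    have := (h.1 θ).add (h.2 θ)
    rwa [add_zero] at this

theorem Sml.mul (h : Sml F μ) (h' : Sml F ν) : Sml F (μ * ν) :=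
  (h.and h').mono fun k h θ => by
    have := (h.1 θ).mul (h.2 θ)
    rwa [mul_zero] at this

theorem Sml.le (h : Sml F μ) (hμ : Wgt μ) : Le F μ (w1 J) := by
  obtain ⟨c, h⟩ := eventually_atTop.1 h
  refine ⟨c, fun k θ => ⟨1, zero_le_one, ?_⟩⟩
  refine ((h (k + c) (by omega) θ).eventually_lt_const one_pos).mono fun j h => ?_
  simpa [w1] using (hμ.mono _ _ j (Nat.le_add_right k c)).trans h.le

theorem Dom.bd (ha : Dom μ a) (h : Sml F μ) (hμ : Wgt μ) : Bd a := ha.mono (h.le hμ)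

theorem Dom0.ev_lt' (ha : Dom0 μ a) (h : Sml F μ) :
    ∀ᶠ k in atTop, ∀ θ, ∀ e > 0, ∀ᶠ j in ph F k θ, ∀ x ∈ K j, ‖rep a (j, x)‖ < e := by
  filter_upwards [ha, h] with k h1 h2 θ e he
  obtain ⟨C, -, h1⟩ := h1 θ
  have : Tendsto (fun j => C * μ k j) (ph F k θ) (𝓝 0) := by simpa using (h2 θ).const_mul C
  exact (h1.and (this.eventually_lt_const he)).mono fun j h x hx => (h.1 x hx).trans_lt h.2

theorem Dom0.ev_lt_th (ha : Dom0 μ a) (h : Sml F μ) (e : Th F → ℝ) (he : ∀ θ, 0 < e θ) :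
    ∀ᶠ j in F, ∀ x ∈ K j, ‖rep a (j, x)‖ < e (th F j) :=
  evk_of ((ha.ev_lt' h).mono fun k h θ => ((h θ _ (he θ)).and (Gr.th_eq k θ)).mono
    fun _ h x hx => h.2.symm ▸ h.1 x hx)

theorem Dom0.ev_lt (ha : Dom0 μ a) (h : Sml F μ) (e : ℝ) (he : 0 < e) :
    ∀ᶠ j in F, ∀ x ∈ K j, ‖rep a (j, x)‖ < e := ha.ev_lt_th h (fun _ => e) fun _ => he

theorem Dom.ev_lt (ha : Dom μ a) (h : Sml F μ) (e : ℝ) (he : 0 < e) :
    ∀ᶠ j in F, ∀ x ∈ K j, ‖rep a (j, x)‖ < e := ha.dom0.ev_lt h e he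

theorem Low.add_sml (ha : Low a) (hb : Dom0 μ b) (h : Sml F μ) : Low (a + b) := by
  refine low_of (rep_add a b) ?_
  filter_upwards [ha, hb.ev_lt' h] with k h1 h2 θ
  obtain ⟨c, hc, h1⟩ := h1 θ
  refine ⟨c / 2, by positivity, (h1.and (h2 θ (c / 2) (by positivity))).mono fun j h x hx => ?_⟩
  have := norm_sub_le (rep a (j, x) + rep b (j, x)) (rep b (j, x))
  rw [add_sub_cancel_right] at this
  have := h.1 x hx
  have := h.2 x hx
  simp only [Pi.add_apply]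
  linarith

theorem Dom.low_one_add (hb : Dom μ b) (h : Sml F μ) : Low (1 + b) := low_one.add_sml hb.dom0 h

section pull
variable {E' : Type} [NormedAddCommGroup E'] [NormedSpace ℝ E'] {K' : J → Set E'}
  {X : J × E' → E}

theorem mp_lf (h : Mp F K' K X) : ∀ᶠ q in gr, ∀ θ, Mp (ph F q.2 θ) K' K X :=
  ((evg h.sm).and (evj h.maps)).mono fun _ h θ => ⟨h.1 θ, h.2 θ⟩

theorem lf_pb (h : Mp F K' K X) (a : Sm (nb F K)) : ∀ᶠ q in gr, ∀ θ,
    ∀ h' : Mp (ph F q.2 θ) K' K X, lf q.2 θ (h.pb a) = h'.pb (lf q.2 θ a) := by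
  filter_upwards [rep_lf a, rep_lf' (h.rep_pb a)] with q h1 h2 θ h'
  exact ext_rep ((h2 θ).trans ((h'.rep_pb _).trans (h'.ev (h1 θ))).symm)

theorem lf_co (h : Mp F K' K X) (l : E →L[ℝ] ℂ) : ∀ᶠ q in gr, ∀ θ,
    ∀ h' : Mp (ph F q.2 θ) K' K X, lf q.2 θ (h.co l) = h'.co l := by
  filter_upwards [rep_lf' (rep_mk _ (h.sm_co l))] with q h1 θ h'
  exact ext_rep ((h1 θ).trans (rep_mk _ (h'.sm_co l)).symm)

theorem Dom0.pb (ha : Dom0 μ a) (h : Mp F K' K X) : Dom0 μ (h.pb a) := by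
  rw [dom0_iff] at ha ⊢
  filter_upwards [ha, mp_lf h, lf_pb h a] with q h1 h2 h3 θ
  rw [h3 θ (h2 θ)]; exact (h2 θ).dom0 (h1 θ)

theorem Low.pb (ha : Low a) (h : Mp F K' K X) : Low (h.pb a) := by
  refine low_of (h.rep_pb a) ?_
  filter_upwards [ha, evk h.maps] with k h1 h2 θ
  obtain ⟨c, hc, h1⟩ := h1 θ
  exact ⟨c, hc, (h1.and (h2 θ)).mono fun j h x hx => h.1 _ (h.2 x hx)⟩

/-- The derivatives of the map are bounded. -/
def Tame (h : Mp F K' K X) : Prop := ∀ (l : E →L[ℝ] ℂ) (v : E'), Bd (pd v (h.co l))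

/-- The pull back keeps the classes Dom μ. -/
theorem Dom.pb [FiniteDimensional ℝ E] [FiniteDimensional ℝ E'] (ha : Dom μ a) (h : Mp F K' K X)
    (ht : Tame h) (hμ : Wgt μ) : Dom μ (h.pb a) := by
  let e := Module.finBasis ℝ E
  let e' := Module.finBasis ℝ E'
  rw [dom_iff] at ha ⊢
  filter_upwards [ha, mp_lf h, lf_pb h a, eventually_all.2 fun i => eventually_all.2 fun l =>
    (dom_iff.1 (ht (bco e i) (e' l))).and ((lf_pd (e' l) (h.co (bco e i))).and (lf_co h (bco e i)))]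
    with q h1 h2 h3 h4 θ
  rw [h3 θ (h2 θ)]
  refine dn_pb (h2 θ) e e' (wgt_cw hμ _) (fun i l => ?_) (h1 θ)
  rw [← (h4 i l).2.2 θ, ← (h4 i l).2.1 θ]
  exact (h4 i l).1 θ

theorem tame_of_basis [FiniteDimensional ℝ E] (h : Mp F K' K X) {ι : Type} [Fintype ι]
    (e : Module.Basis ι ℝ E) (hb : ∀ i v, Bd (pd v (h.co (bco e i)))) : Tame h := by
  intro l v
  rw [h.co_sum e l, map_sum]
  refine dom_sum wgt_one _ fun i _ => ?_
  rw [D_mul, D_alg, mul_zero, zero_add]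
  exact Dom.bmul wgt_one (bd_alg _) (hb i v)

theorem dom_pb_aff {x0 : J → E} {L : E' →L[ℝ] E} (h : Mp F K' K (aff x0 L)) (ha : Dom μ a) :
    Dom μ (h.pb a) := by
  rw [dom_iff] at ha ⊢
  filter_upwards [ha, mp_lf h, lf_pb h a] with q h1 h2 h3 θ
  rw [h3 θ (h2 θ)]; exact dn_pb_aff _ (h1 θ)

theorem Dom0.ev0 (hμ : Wgt μ) (x0 : J → E) (hx : ∀ᶠ j in F, x0 j ∈ K j) (ha : Dom0 μ a) :
    Dom μ (ev0 x0 hx a : Sm (nb F K')) := by
  have := ha.pb (mp_ev (K' := K') x0 hx)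
  rw [show (mp_ev (K' := K') x0 hx).pb a = _ from ev0_eq x0 hx a] at this
  rw [ev0_eq]
  exact dom_cst hμ _ this

end pull

theorem Dom.res {K1 : J → Set E} (hs : ∀ᶠ j in F, K1 j ⊆ K j) (ha : Dom μ a) :
    Dom μ (res hs a) := dom_pb_aff (mp_res hs) ha

theorem Dom0.res {K1 : J → Set E} (hs : ∀ᶠ j in F, K1 j ⊆ K j) (ha : Dom0 μ a) :
    Dom0 μ (res hs a) := ha.pb (mp_res hs)

theorem Low.res {K1 : J → Set E} (hs : ∀ᶠ j in F, K1 j ⊆ K j) (ha : Low a) : Low (res hs a) :=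
  ha.pb (mp_res hs)

theorem Dom.up (ha : Dom μ a) : Dom μ (up a) := dom_pb_aff mp_up ha
theorem Dom.lev0 {a : Sm (nb F (cyl K))} (ha : Dom μ a) : Dom μ (lev0 a) := dom_pb_aff _ ha
theorem Dom.lev1 {a : Sm (nb F (cyl K))} (ha : Dom μ a) : Dom μ (lev1 a) := dom_pb_aff _ ha

/-- Domination is local. -/
theorem dom_cover (hμ : Wgt μ) {K1 K2 : J → Set E} (h1 : ∀ᶠ j in F, K1 j ⊆ K j)
    (h2 : ∀ᶠ j in F, K2 j ⊆ K j) (h : ∀ᶠ j in F, K j ⊆ K1 j ∪ K2 j) (a1 : Dom μ (res h1 a))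
    (a2 : Dom μ (res h2 a)) : Dom μ a := by
  filter_upwards [a1.tn (rep_res h1 a), a2.tn (rep_res h2 a), evj h] with q e1 e2 e3 θ w hw
  obtain ⟨C, hC, e1⟩ := e1 θ w hw
  obtain ⟨C', hC', e2⟩ := e2 θ w hw
  refine ⟨C + C', add_nonneg hC hC', ?_⟩
  filter_upwards [e1, e2, e3 θ] with j e1 e2 e3 x hx
  have := mul_nonneg hC (hμ.nonneg q.2 j)
  have := mul_nonneg hC' (hμ.nonneg q.2 j)
  rcases e3 hx with k | k
  · linarith [e1 x k]
  · linarith [e2 x k]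

/-- A family which vanishes near the sets K j is dominated by every weight; more generally only
the germ along K matters. -/
theorem dom_congr {K1 : J → Set E} {b : Sm (nb F K1)} (hs : ∀ᶠ j in F, K j ⊆ K1 j)
    (e : rep a =ᶠ[nb F K] rep b) (hb : Dom μ b) : Dom μ a := by
  rw [ext_rep (e.trans (rep_res hs b).symm)]
  exact hb.res hs

/-- A fixed function which is smooth near compact sets containing the K j is bounded. -/
theorem bd_fn {O : Set E} (hO : IsOpen O)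
    (hK : ∀ᶠ k in atTop, ∀ θ, ∃ C, IsCompact C ∧ C ⊆ O ∧ ∀ᶠ j in ph F k θ, K j ⊆ C) {φ : E → ℂ}
    (hφ : ContDiffOn ℝ ∞ φ O) : ∃ h, Bd (fn φ h : Sm (nb F K)) := by
  have ev : ∀ᶠ j in F, K j ⊆ O := evk_of (hK.mono fun k h θ => by
    obtain ⟨C, -, h1, h2⟩ := h θ
    exact h2.mono fun j h => h.trans h1)
  have sm : ∀ᶠ p in nb F K, ContDiffAt ℝ ∞ φ p.2 := ev_nb.2 (ev.mono fun j h x hx =>
    (hO.eventually_mem (h hx)).mono fun y hy => hφ.contDiffAt (hO.mem_nhds hy))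
  refine ⟨sm, dom_of_tn (rep_mk (fun p => φ p.2) sm) ?_⟩
  filter_upwards [ev_gr2.2 hK] with q h θ
  obtain ⟨C, h1, h2, h3⟩ := h θ
  obtain ⟨s, hs⟩ := P354XG.bd_fn h1 h3 hO h2 hφ
  exact (tn_iff (rep_mk (fun p => φ p.2) s)).2 (dn_of_dom hs _)

theorem bd_fn' {C : Set E} (hC : IsCompact C) (hK : ∀ᶠ j in F, K j ⊆ C) {O : Set E}
    (hO : IsOpen O) (hCO : C ⊆ O) {φ : E → ℂ} (hφ : ContDiffOn ℝ ∞ φ O) :
    ∃ h, Bd (fn φ h : Sm (nb F K)) :=
  bd_fn hO ((evk hK).mono fun _ h θ => ⟨C, hC, hCO, h θ⟩) hφ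

theorem bd_par : Bd (par : Sm (nb F (cyl K))) :=
  dom_of_tn rep_par (Eventually.of_forall fun _ _ =>
    (tn_iff rep_par).2 (dn_of_dom P354XG.bd_par _))

variable [FiniteDimensional ℝ E]

theorem lf_int (a : Sm (nb F (cyl K))) : ∀ᶠ q in gr, ∀ θ, lf q.2 θ (int a) = int (lf q.2 θ a) := by
  filter_upwards [rep_lf a, rep_lf' (rep_mk _ (rep_sm a).int)] with q h1 h2 θ
  exact ext_rep ((h2 θ).trans ((rep_mk _ (rep_sm _).int).trans (intF_congr (h1 θ))).symm)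

theorem Dom.int (hμ : Wgt μ) {a : Sm (nb F (cyl K))} (ha : Dom μ a) : Dom μ (int a) := by
  rw [dom_iff] at ha ⊢
  filter_upwards [ha, lf_int a] with q h1 h2 θ
  rw [h2]; exact dn_int (wgt_cw hμ _) (h1 θ)

theorem Dom0.int (hμ : Wgt μ) {a : Sm (nb F (cyl K))} (ha : Dom0 μ a) : Dom0 μ (int a) := by
  rw [dom0_iff] at ha ⊢
  filter_upwards [ha, lf_int a] with q h1 h2 θ
  rw [h2]; exact (h1 θ).int (wgt_cw hμ _)

end Vale.Agent.P354MG
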