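import Vale.Agent.P354MG.Asm
import Vale.Agent.P354YO.Ob

/-!
Monotonicity, constants which are monotone in the radius, and the metric in the chart of the
estimates in terms of the windows.
-/

open scoped ContDiff
open Set Filter Topology

noncomputable section

namespace Vale.Agent.P354MG

open Vale.Agent.P354n (R4)
open Vale.Agent.P354XG Vale.Agent.P354XD Vale.Agent.P354XR Vale.Agent.P354XI Vale.Agent.P354Z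
open Vale.Agent.P354XE (Tw gin rd pb)
open Vale.Agent.P354XO (Om Cht b4 dn4 dnf)
open Vale.Agent.P354YI (Jb)
open Vale.Agent.P354YO (sh IsTh Sb bd_mono)
open Vale.Agent.P354CQ (glu anc)

variable {f : Fx} {v : Va} {q : Qn} {Rs Rb E E' e0 ρ ρ' u μ μ' ε ε' : ℝ} {k n : ℕ} {C : ℝ → ℝ}

theorem Sz.up {M a : ℝ} {H : ℝ → ℝ} {D : Set (ℝ × ℝ)} {g : Tw} {I : Set ℝ}
    (h : Sz M a H k D g ρ I E E) (l : E ≤ E') : Sz M a H k D g ρ I E' E' :=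
  ⟨h.1.trans l, le_rfl, fun x hx t => ⟨(h.2.2 x hx t).1.trans (pow_le_pow_left₀ h.1 l 2),
    bd_mono (h.2.2 x hx t).2 le_rfl l⟩⟩

theorem In.up (h : In f v Rs Rb k n C E e0) (l : E ≤ E') : In f v Rs Rb k n C E' e0 :=
  ⟨h.toGm, h.nth, h.par.trans l, h.ny, h.sz.up l, h.s0, h.b0⟩

theorem Wn.mono (h : Wn f v Rs k e0 ρ u μ) (r : ρ' ≤ ρ) (l : μ ≤ μ') : Wn f v Rs k e0 ρ' u μ' :=
  ⟨h.nn.trans l, fun t => (h.early t).trans l, fun t x hx a =>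
    (h.eta t x ⟨hx.1, hx.2.1, hx.2.2.trans r⟩ a).trans (pow_le_pow_left₀ h.nn l 2),
    fun t s hs a => (h.par t s hs a).trans l⟩

theorem Wn.inf (h : Wn f v Rs k e0 ρ u μ) (h' : Wn f v Rs k e0 ρ' u μ') :
    Wn f v Rs k e0 (min ρ ρ') u (min μ μ') := by
  rcases le_total μ μ' with l | l
  · rw [min_eq_left l]; exact h.mono (min_le_left _ _) le_rfl
  · rw [min_eq_right l]; exact h'.mono (min_le_right _ _) le_rfl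

theorem Cz.mono (h : Cz f v q ε) (l : ε ≤ ε') : Cz f v q ε' :=
  ⟨h.th, h.par.trans l, h.k.trans l, h.ok, fun x hx => bd_mono (h.g x hx) le_rfl l,
    fun x hx => bd_mono (h.gE x hx) le_rfl l, fun x hx => (h.nid x hx).mono le_rfl l⟩

/-! ### Monotone constants -/

/-- The clauses of MET, of NONE and of Ntwo on r ≤ ρ. -/
def MetP (f : Fx) (n : ℕ) (ρ C e : ℝ) : Prop := ∀ v q Rb, Ge f v q Rb →
  IsTh f.z.M v.M v.a v.A v.B → |v.M - f.z.M| + |v.a - f.z.a| ≤ e →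
  ∀ x ∈ f.X0 v q, x.2.1 ≤ ρ → ∀ μ ε, 0 ≤ μ → μ ≤ ε → ε ≤ e → Zn f v n x ε μ →
    P354XE.Bd n (f.gE v q - kE v.M v.a v.A v.B) (pj (f.ac v q x)) (C * μ) ∧
      Nid n (fun y => sh f.A f.B (dn4 (f.ch v q) y)) (f.S (pj x)) (C * ε) ∧
      Jb n (fderiv ℝ (dn4 (f.ch v q))) (f.S (pj x)) C ∧ (x.1 < f.ti →
        Jb n (fun y => sh f.A f.B (dn4 (f.ch v q) y) - y) (f.S (pj x)) (C * μ))

def OneP (M0 a0 r1 : ℝ) (n m : ℕ) (ρ C e : ℝ) : Prop := ∀ O g M a A B, Cone O →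
  (∀ x ∈ O, VacAt g (pj x)) → IsTh M0 M a A B → |M - M0| + |a - a0| ≤ e → OkE O g M0 M a →
  ∀ x ∈ O, An x → r1 ≤ x.2.1 → x.2.1 ≤ ρ → ∀ d ∈ Icc 0 e,
    P354XE.Bd m (g - kE M a A B) (pj x) d → ∀ i, q2 (lt (hp _) (pI O M0 M a)) x n
      (dat (hp _) (pI O M0 M a) ((fE O g M0 M a).ghp (ge O g)) i -
        dat (hp _) (pI O M0 M a) (kI O M0 M a).kerr i) ≤ (C * d) ^ 2

def TwoP (M0 a0 R : ℝ) (F : ∀ O : Set E6, Tw → ℝ → ℝ → Fr (Sm (on O))) (n m : ℕ) (ρ C e : ℝ) :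
    Prop := ∀ O g M a A B, P354F2.Pre M0 R O g → IsTh M0 M a A B → |M - M0| + |a - a0| ≤ e →
  ∀ x ∈ O, An x → R ≤ x.2.1 → 0 ≤ uu M0 x + x.2.1 → x.2.1 ≤ ρ → ∀ d ∈ Icc 0 e,
    (∀ y ∈ P354F2.Seg M0 R x, P354XE.Bd m (g - pb (sh A B) (gin M a)) (pj y) d) →
    ∀ i, q2 (lt (hp _) (pO O M0 M a)) x n (P354F2.dd O g (F O g M a) M0 M a i) ≤ (C * d) ^ 2

/-- A monotone constant for the clause P. -/
def Env (P : ℝ → ℝ → ℝ → Prop) (C : ℝ → ℝ) : Prop :=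
  Monotone C ∧ (∀ ρ, 1 ≤ C ρ) ∧ ∀ R, ∃ e > 0, ∀ ρ ≤ R, P ρ (C ρ) e

theorem met_env (h : ∀ ρ, ∃ C, ∃ e > 0, MetP f n ρ C e) : ∃ C, Env (MetP f n) C :=
  mono_env h fun _ _ _ _ _ _ p r c _ l v q Rb g t a x hx b μ ε m0 m1 m2 z =>
    let ⟨p1, p2, p3, p4⟩ := p v q Rb g t (a.trans l) x hx (b.trans r) μ ε m0 m1 (m2.trans l) z
    ⟨bd_mono p1 le_rfl (by gcongr), p2.mono le_rfl (by have := m0.trans m1; gcongr),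
      p3.mono le_rfl c, fun t => (p4 t).mono le_rfl (by gcongr)⟩

theorem sq_env {P : ℝ → ℝ → ℝ → Prop} (h : ∀ ρ, ∃ C, ∃ e > 0, P ρ C e)
    (a : ∀ ρ C e, P ρ C e → P ρ |C| e)
    (m : ∀ ρ C e ρ' C' e', P ρ C e → ρ' ≤ ρ → 0 ≤ C → C ≤ C' → e' ≤ e → P ρ' C' e') :
    ∃ C, Env P C := by
  obtain ⟨C, h1, h2, h3⟩ := mono_env (P := fun ρ C e => 0 ≤ C ∧ P ρ C e)
    (fun ρ => let ⟨C, e, e0, p⟩ := h ρ; ⟨|C|, e, e0, abs_nonneg _, a _ _ _ p⟩)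
    fun _ _ _ _ _ _ p r c _ l => ⟨p.1.trans c, m _ _ _ _ _ _ p.2 r p.1 c l⟩
  exact ⟨C, h1, h2, fun R => (h3 R).imp fun e k => ⟨k.1, fun ρ l => (k.2 ρ l).2⟩⟩

theorem sq_ab (C d : ℝ) : (C * d) ^ 2 = (|C| * d) ^ 2 := by rw [mul_pow, mul_pow, sq_abs]

theorem one_env {M0 a0 r1 : ℝ} {m : ℕ} (h : ∀ ρ, ∃ C, ∃ e > 0, OneP M0 a0 r1 n m ρ C e) :
    ∃ C, Env (OneP M0 a0 r1 n m) C :=
  sq_env h (fun _ _ _ p O g M a A B h1 h2 h3 h4 h5 x h6 h7 h8 h9 d hd b i =>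
    (p O g M a A B h1 h2 h3 h4 h5 x h6 h7 h8 h9 d hd b i).trans_eq (sq_ab _ _))
    fun _ _ _ _ _ _ p r c0 c l O g M a A B h1 h2 h3 h4 h5 x h6 h7 h8 h9 d hd b i =>
      (p O g M a A B h1 h2 h3 (h4.trans l) h5 x h6 h7 h8 (h9.trans r) d ⟨hd.1, hd.2.trans l⟩
        b i).trans (by have := hd.1; gcongr)

theorem two_env {M0 a0 R : ℝ} {F : ∀ O : Set E6, Tw → ℝ → ℝ → Fr (Sm (on O))} {m : ℕ}
    (h : ∀ ρ, ∃ C, ∃ e > 0, TwoP M0 a0 R F n m ρ C e) : ∃ C, Env (TwoP M0 a0 R F n m) C :=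
  sq_env h (fun _ _ _ p O g M a A B h1 h2 h3 x h6 h7 h8 h9 h0 d hd b i =>
    (p O g M a A B h1 h2 h3 x h6 h7 h8 h9 h0 d hd b i).trans_eq (sq_ab _ _))
    fun _ _ _ _ _ _ p r c0 c l O g M a A B h1 h2 h3 x h6 h7 h8 h9 h0 d hd b i =>
      (p O g M a A B h1 h2 (h3.trans l) x h6 h7 h8 h9 (h0.trans r) d ⟨hd.1, hd.2.trans l⟩
        b i).trans (by have := hd.1; gcongr)

/-! ### The metric in terms of the windows -/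

theorem x0_of {x : E6} (h : x ∈ f.X1 v q) : x ∈ f.X0 v q := ⟨h.1.1, h.2⟩
theorem cut_of {x : E6} (h : x ∈ f.X1 v q) : x ∈ Om (P354CQ.cut (f.D q.c.Rs v.Lv) q.c.Rs) :=
  ⟨⟨h.1.1.1, h.1.2⟩, h.2⟩

theorem zn_of (g : Ge f v q Rb) (z : Zo f v q.c.Rs Rb k n C E e0) {x : E6} (hx : x ∈ f.X1 v q)
    (pt : f.z.Pt q.c.Rs Rb v.Lv (f.S (pj x))) (r : f.z.R1 + 3 ≤ ρ) (r' : x.2.1 ≤ ρ) (l : μ ≤ E)
    (w : Wn f v q.c.Rs k e0 ρ x.1 μ) : Zn f v n x (C q.c.Rs * E) (C ρ * μ) := by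
  refine ⟨z.nid x (cut_of hx), z.bd ρ r x (cut_of hx) r' pt μ l w, fun a => ?_⟩
  obtain ⟨κ, k1, k2, k3⟩ := z.ray ρ r x (cut_of hx) a r' μ l w
  exact ⟨κ, k1, k2, fun s hs => ⟨z.nid (anc s x)
    ⟨⟨g.su.dk.ray _ hx.1.1.1 s hs, hs.2.trans_lt hx.1.2⟩, hx.2⟩, k3 s hs⟩⟩

/-- The consequences of ZON and MET. -/
structure Mt (f : Fx) (v : Va) (q : Qn) (k n : ℕ) (C : ℝ → ℝ) (E e0 : ℝ) : Prop where
  pt : ∀ ρ ∈ Icc (f.z.R1 + 3) q.c.Rs, ∀ x ∈ f.X1 v q, x.2.1 ≤ ρ → ∀ μ ≤ E,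
    Wn f v q.c.Rs k e0 ρ x.1 μ →
    P354XE.Bd n (f.gE v q - kE v.M v.a v.A v.B) (pj (f.ac v q x)) (C ρ * μ) ∧
      Nid n (fun y => sh f.A f.B (dn4 (f.ch v q) y)) (f.S (pj x)) (C q.c.Rs * E) ∧
      Jb n (fderiv ℝ (dn4 (f.ch v q))) (f.S (pj x)) (C q.c.Rs) ∧ (x.1 < f.ti →
        Jb n (fun y => sh f.A f.B (dn4 (f.ch v q) y) - y) (f.S (pj x)) (C ρ * μ))

theorem mt_of {CM : ℝ → ℝ} {e : ℝ} (g : Ge f v q Rb) (z : Zo f v q.c.Rs Rb k n C E e0)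
    (pt : ∀ x ∈ f.X0 v q, f.z.Pt q.c.Rs Rb v.Lv (f.S (pj x))) (c : Monotone C) (c1 : ∀ ρ, 1 ≤ C ρ)
    (m : Monotone CM) (m1 : ∀ ρ, 1 ≤ CM ρ) (p : ∀ ρ ≤ q.c.Rs, MetP f n ρ (CM ρ) e)
    (th : IsTh f.z.M v.M v.a v.A v.B) (par : |v.M - f.z.M| + |v.a - f.z.a| ≤ e)
    (s : C q.c.Rs * E ≤ e) : Mt f v q k n (fun ρ => CM ρ * C ρ) E e0 := by
  refine ⟨fun ρ hρ x hx r μ l w => ?_⟩
  have a := (c1 ρ).trans' zero_le_one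
  have a' := (c1 q.c.Rs).trans' zero_le_one
  have b := (m1 ρ).trans' zero_le_one
  have w0 := w.nn
  have E0 := w0.trans l
  have cc := c hρ.2
  have mm := m hρ.2
  obtain ⟨p1, p2, p3, p4⟩ := p ρ hρ.2 v q Rb g th par x (x0_of hx) r _ _ (by positivity)
    (by gcongr) s (zn_of g z hx (pt x (x0_of hx)) hρ.1 r l w)
  refine ⟨by simpa only [mul_assoc] using p1, p2.mono le_rfl ?_, p3.mono le_rfl
    (mm.trans (le_mul_of_one_le_right (b.trans mm) (c1 _))), by simpa only [mul_assoc] using p4⟩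
  rw [mul_assoc]
  gcongr

end Vale.Agent.P354MG
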