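import Vale.Agent.P354MG.Phi
import Vale.Agent.P354NU.Num
import Vale.Agent.P354CQ.Shs
import Vale.Agent.P354CQ.Exa
import Vale.Agent.P354F2.Defs
import Vale.Agent.P354Z.Scf

/-!
The construction of the state of the estimates, and the rows of the assembly. Exact statements.
-/

open scoped ContDiff
open Set Filter Topology

noncomputable section

namespace Vale.Agent.P354MG

open Vale.Agent.P354n (R4)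
open Vale.Agent.P354XG Vale.Agent.P354XD Vale.Agent.P354XR Vale.Agent.P354XI Vale.Agent.P354Z
open Vale.Agent.P354XE (Tw gin rd pb)
open Vale.Agent.P354XV (Fst Flt Sw)
open Vale.Agent.P354XO (Om Cht b4 dn4 dnf)
open Vale.Agent.P354YI (Jb)
open Vale.Agent.P354YO (sh IsTh Sb)
open Vale.Agent.P354YA (eta)
open Vale.Agent.P354CQ (glu anc hp' tz fz Dv D0 D1 D2 Kn Su Wd lid w0 alf)
open Vale.Agent.P354NU (Nums Dq)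
open Vale.Agent.P354RN (shr)

/-- The fixed data; t0 is the bottom of the slices. -/
structure Fx where
  z : Z1
  a : C1
  A : ℝ → ℝ
  B : ℝ → ℝ
  H : ℝ → ℝ
  k : ℝ
  t0 : ℝ
  ti : ℝ
  tw : ℝ
  cH : ℝ
  us : ℝ

/-- The constants. -/
structure Qn where
  b : C2
  c : C3
  d : C4
  L : ℝ
  c1 : ℝ
  F : ℝ
  k : ℝ
  e : ℝ

/-- The data of the state: the levels, the metric, the chart y with the parameters pq of the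
slices, the final parameters and their chart. -/
structure Va where
  Lv : Set ℝ
  g : Tw
  y : R4 → R4
  pq : ℝ → ℝ × ℝ
  M : ℝ
  a : ℝ
  A : ℝ → ℝ
  B : ℝ → ℝ

namespace Fx
variable (f : Fx)

structure Ok : Prop where
  ok : f.z.Ok
  nu : Nums f.z f.a f.A f.B f.H f.k f.t0 f.ti f.tw f.cH f.us

/-- The radius of the anchor, the maps from the straight chart to the ingoing chart, the region
below the lid in the straight chart, and the region of the slices. -/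
def R : ℝ := f.z.R1 + 9 / 4
def S : R4 → R4 := st4 f.z.M f.A f.B
def P : E6 → E6 := P354CQ.ph f.z.M f.A f.B
def D (Rs : ℝ) (Lv : Set ℝ) : Set (ℝ × ℝ) := Dv f.z.r1 (tz f.z f.A f.B Rs) Lv
def Dh (Rs : ℝ) (Lv : Set ℝ) : Set (ℝ × ℝ) := Dq f.z f.H f.t0 Rs Lv
def c (q : Qn) : Cs := cs f.z f.a q.b q.c q.d
def n (q : Qn) : Kn :=
  ⟨f.z.r1, q.L, q.c1, f.ti, q.F, q.k, q.e, fz f.z f.A, w0, tz f.z f.A f.B q.c.Rs⟩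

variable (v : Va)

/-- The metric in the straight chart, the near chart, the factor of the affine parameter. -/
def h : Tw := pb f.S v.g
def phi : R4 → R4 := phB f.ti (phN f.z.M f.A f.B v.A v.B v.y)
def al : E6 → ℝ := alf f.R f.us (f.h v) (f.phi v)
def kv : Tw := kS f.z.M v.M v.a v.A v.B
def na (x : E6) : E6 := if x.1 ≤ f.ti then x else lft (f.phi v) x

variable (q : Qn)

/-- The straight cones, the chart on them, the cone U of the scaffold, the chart on U, the metric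
and the regions of the estimates. -/
def X0 : Set E6 := Om (D0 (f.c q) (f.D q.c.Rs v.Lv))
def X1 : Set E6 := Om (D1 (f.c q) (f.D q.c.Rs v.Lv))
def X2 : Set E6 := Om (D2 (f.c q) (f.D q.c.Rs v.Lv))
def ac : E6 → E6 := P354CQ.ac (f.c q) (f.na v) (f.al v)
def U : Set E6 := f.P '' f.X0 v q
def ch : E6 → E6 := f.ac v q ∘ hp' f.z.M f.A f.B
def gE : Tw := pb (b4 (f.U v q) (f.ch v q)) v.g
def O1 : Set E6 := f.ac v q '' f.X1 v q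
def O2 : Set E6 := P354F2.core f.z.M (f.z.R1 + 3) (f.ac v q '' f.X2 v q)

/-- The state of the estimates. -/
def E (F : ∀ O : Set E6, Tw → ℝ → ℝ → Fr (Sm (on O))) (e0 : ℝ) : Est :=
  ⟨f.O1 v q, f.O2 v q, f.gE v q, fE _ (f.gE v q) f.z.M v.M v.a, F _ (f.gE v q) v.M v.a,
    lid (f.c q) (f.n q) v.Lv (f.na v) (f.al v) _, lid (f.c q) (f.n q) v.Lv (f.na v) (f.al v) _,
    v.Lv, v.M, v.a, e0⟩

end Fx

section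
variable (f : Fx) (v : Va) (Rs Rb : ℝ) (k n : ℕ) (C : ℝ → ℝ) (E e0 : ℝ)

/-- The metric below the lid. -/
structure Gm : Prop where
  op : IsOpen v.Lv
  lw : IsLowerSet v.Lv
  lv : ∀ p, f.z.Pt Rs Rb v.Lv p → ∃ W, P354XV.Lv v.g W ∧ p ∈ W
  fst : ∀ p ∈ interior (Sw (f.z.pm Rs Rb)), (f.z.pm Rs Rb).tau p ∈ v.Lv →
    ∀ᶠ q in 𝓝 p, Fst (f.z.pm Rs Rb) f.z.κ v.g q ∧ Flt (f.z.pm Rs Rb) v.g q

/-- What is known of the state: E is the a priori size and e0 the size of the data. -/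
structure In : Prop extends Gm f v Rs Rb where
  nth : Nth f.z.M f.z.R1 v.M v.a f.A f.B v.A v.B
  par : |v.M - f.z.M| + |v.a - f.z.a| ≤ E
  ny : Ny f.z.M f.z.a f.H k (f.Dh Rs v.Lv) v.g f.z.R1 f.t0 n C v.y v.pq
  sz : Sz f.z.M f.z.a f.H k (f.Dh Rs v.Lv) v.g Rs univ E E
  s0 : Sz f.z.M f.z.a f.H k (f.Dh Rs v.Lv) v.g Rs (Iic (f.ti + f.cH + 4)) e0 e0
  b0 : ∀ p, f.z.Pt Rs Rb v.Lv p → rd p ≤ Rs → p.1 - f.A (rd p) ≤ f.ti + 2 →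
    P354XE.Bd n (v.g - gin f.z.M f.z.a) p e0

/-- The size μ on r ≤ ρ in the window of the straight time u. -/
structure Wn (ρ u μ : ℝ) : Prop where
  nn : 0 ≤ μ
  early : u < f.ti + 2 → e0 + (|v.M - f.z.M| + |v.a - f.z.a|) ≤ μ
  eta : f.ti + 1 < u → ∀ x ∈ Un (f.Dh Rs v.Lv) ρ, |x.1 - u| ≤ f.cH →
    eta f.z.M f.z.a k v.g (shr f.H x) ≤ μ ^ 2
  par : f.ti + 1 < u → ∀ t, (t, f.z.R1) ∈ f.Dh Rs v.Lv → |t - u| ≤ f.cH →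
    ‖v.pq t - (v.M, v.a)‖ ≤ μ

/-- The estimates of the near chart and of the factor. -/
structure Zo : Prop where
  nid : ∀ x ∈ Om (P354CQ.cut (f.D Rs v.Lv) Rs), Nid (n + 1) (f.phi v) (pj x) (C Rs * E)
  sm : ∀ x ∈ Om (Wd (f.D Rs v.Lv) f.R), ContDiffAt ℝ ∞ (f.al v) x
  bd : ∀ ρ ≥ f.z.R1 + 3, ∀ x ∈ Om (P354CQ.cut (f.D Rs v.Lv) Rs), x.2.1 ≤ ρ →
    f.z.Pt Rs Rb v.Lv (f.S (pj x)) → ∀ μ ≤ E, Wn f v Rs k e0 ρ x.1 μ →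
    P354XE.Bd n (f.h v - pb (f.phi v) (f.kv v)) (pj x) (C ρ * μ)
  ray : ∀ ρ ≥ f.z.R1 + 3, ∀ x ∈ Om (P354CQ.cut (f.D Rs v.Lv) Rs), f.R ≤ x.2.1 → x.2.1 ≤ ρ →
    ∀ μ ≤ E, Wn f v Rs k e0 ρ x.1 μ → ∃ κ, |κ - 1| ≤ C Rs * E ∧
      Jb (n + 1) (fun q => dnf (f.al v) q - κ) (pj (anc f.R x)) (C ρ * μ) ∧
      ∀ s ∈ Icc f.R x.2.1, Jb (n + 1) (dfc (f.phi v) κ) (pj (anc s x)) (C ρ * μ)
  tm : ∀ x ∈ Om (f.Dh Rs v.Lv), x.2.1 ≤ f.z.R1 + 1 →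
    |(f.phi v (pj (hp' f.z.M f.A f.B (shr f.H x)))).1 - (v.y (pj (shr f.H x))).1| ≤ C f.z.R1

end

/-- The geometric input. -/
structure Ge (f : Fx) (v : Va) (q : Qn) (Rb : ℝ) : Prop extends Gm f v q.c.Rs Rb where
  rb : f.z.R1 + 2 ≤ Rb
  su : Su (f.c q) (f.n q) v.Lv (f.na v) (f.al v)
  lf : ∀ x ∈ Om (P354CQ.cut (f.D q.c.Rs v.Lv) (f.R + 1 / 2)), pj (f.na v x) = f.phi v (pj x)

/-- The estimates at x and on the ray through x. -/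
structure Zn (f : Fx) (v : Va) (n : ℕ) (x : E6) (ε μ : ℝ) : Prop where
  nid : Nid (n + 1) (f.phi v) (pj x) ε
  bd : P354XE.Bd n (f.h v - pb (f.phi v) (f.kv v)) (pj x) μ
  ray : f.R ≤ x.2.1 → ∃ κ, |κ - 1| ≤ ε ∧
    Jb (n + 1) (fun q => dnf (f.al v) q - κ) (pj (anc f.R x)) μ ∧ ∀ s ∈ Icc f.R x.2.1,
      Nid (n + 1) (f.phi v) (pj (anc s x)) ε ∧ Jb (n + 1) (dfc (f.phi v) κ) (pj (anc s x)) μ

/-- Both charts are close to Kerr on the near region. -/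
structure Cz (f : Fx) (v : Va) (q : Qn) (ε : ℝ) : Prop where
  th : IsTh f.z.M v.M v.a v.A v.B
  par : |v.M - f.z.M| + |v.a - f.z.a| ≤ ε
  k : q.k ≤ ε
  ok : OkE (f.O1 v q) (f.gE v q) f.z.M v.M v.a
  g : ∀ x ∈ f.X1 v q, P354XE.Bd 2 (v.g - gin f.z.M f.z.a) (f.S (pj x)) ε
  gE : ∀ x ∈ f.X1 v q, P354XE.Bd 2 (f.gE v q - kE v.M v.a v.A v.B) (pj (f.ac v q x)) ε
  nid : ∀ x ∈ f.X1 v q, Nid 1 (fun y => sh f.A f.B (dn4 (f.ch v q) y)) (f.S (pj x)) ε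

/-- The comparison of the jets of P0 and P4 in the two charts. -/
def Et (f : Fx) (v : Va) (q : Qn) (E : Est) (Λ : ℝ) : Prop :=
  ∀ n, ∀ x ∈ f.X1 v q, ∀ w ≠ 0, ∀ w' ≠ 0, nq (P354XO.sc w (f.P x)) = 1 →
    An (P354XO.sc w' (f.ac v q x)) →
    E.eta n (P354XO.sc w' (f.ac v q x)) ≤
      (Λ ^ (n + 4)) ^ 2 * eta f.z.M f.z.a n v.g (P354XO.sc w (f.P x)) ∧
    eta f.z.M f.z.a n v.g (P354XO.sc w (f.P x)) ≤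
      (Λ ^ (n + 4)) ^ 2 * E.eta n (P354XO.sc w' (f.ac v q x))

/-! ### The rows -/

/-- ZON: the zones u < ti, u < ti + 2 and u > ti + 1. -/
def ZON : Prop := ∀ f : Fx, f.Ok → ∀ n, ∃ n', ∀ (k : ℕ) (C : ℝ → ℝ), Monotone C →
  ∃ C' : ℝ → ℝ, Monotone C' ∧ (∀ ρ, 1 ≤ C' ρ) ∧ ∀ Rs ≥ f.z.R1 + 4, ∃ E1 > 0, ∀ Rb ≥ f.z.R1 + 2,
    ∀ v, ∀ E ∈ Icc 0 E1, ∀ e0 ∈ Icc 0 E, In f v Rs Rb k n' C E e0 → Zo f v Rs Rb k n C' E e0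

/-- LBD: the input of the gluing. -/
def LBD : Prop := ∀ f : Fx, f.Ok → ∃ C0 ≥ (1 : ℝ), ∃ e1 > 0, ∀ v Rs Rb k n (C : ℝ → ℝ) E e0,
  f.z.R1 + 4 ≤ Rs → IsOpen v.Lv → IsLowerSet v.Lv → Zo f v Rs Rb k n C E e0 → 0 ≤ E →
  Monotone C → (∀ ρ, 1 ≤ C ρ) → C Rs * E ≤ e1 →
  (∀ u, f.us - 1 ≤ u → Wn f v Rs k e0 (f.z.R1 + 3) u (E * w0 u)) →
  (∀ e, C0 * (C Rs * E) ≤ e → e ≤ 1 / 8 → P354CQ.Lb (f.D Rs v.Lv) f.R e w0 (f.na v) (f.al v)) ∧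
    ∀ x ∈ Om (P354CQ.cut (f.D Rs v.Lv) (f.R + 1 / 2)), pj (f.na v x) = f.phi v (pj x)

/-- GEO: the regions. -/
def GEO : Prop := ∀ f v q Rb, f.Ok → Ge f v q Rb → Cht (f.U v q) (f.ch v q) ∧
  (∀ x ∈ f.X0 v q, pj (f.P x) = f.S (pj x) ∧ f.z.Pt q.c.Rs Rb v.Lv (f.S (pj x)) ∧
    ∃ W, P354XV.Lv (f.gE v q) W ∧ pj (f.ac v q x) ∈ W) ∧
  P354F2.Pre f.z.M (f.z.R1 + 3) (f.O2 v q) (f.gE v q) ∧
  (∀ F e0, P354CQ.Rg (f.c q) (f.n q) v.Lv (f.na v) (f.al v) (f.E v q F e0)) ∧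
  ∀ x ∈ f.X1 v q, Est.Fa (f.c q) (f.ac v q x) →
    ∀ y ∈ P354F2.Seg f.z.M (f.z.R1 + 3) (f.ac v q x), ∃ x' ∈ f.X1 v q, f.ac v q x' = y ∧
      x'.1 = x.1 ∧ x'.2.1 ≤ x.2.1

/-- MET: the metric and the chart of the estimates. -/
def MET : Prop := ∀ f : Fx, f.Ok → ∀ n ρ, ∃ C, ∃ e > 0, ∀ v q Rb, Ge f v q Rb →
  IsTh f.z.M v.M v.a v.A v.B → |v.M - f.z.M| + |v.a - f.z.a| ≤ e →
  ∀ x ∈ f.X0 v q, x.2.1 ≤ ρ → ∀ μ ε, 0 ≤ μ → μ ≤ ε → ε ≤ e → Zn f v n x ε μ →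
    P354XE.Bd n (f.gE v q - kE v.M v.a v.A v.B) (pj (f.ac v q x)) (C * μ) ∧
      Nid n (fun y => sh f.A f.B (dn4 (f.ch v q) y)) (f.S (pj x)) (C * ε) ∧
      Jb n (fderiv ℝ (dn4 (f.ch v q))) (f.S (pj x)) C ∧ (x.1 < f.ti →
        Jb n (fun y => sh f.A f.B (dn4 (f.ch v q) y) - y) (f.S (pj x)) (C * μ))

/-- ETA: the two transverse frames differ by a bounded boost and a spin. -/
def ETA : Prop := ∀ f : Fx, f.Ok → ∃ Λ ≥ (1 : ℝ), ∀ Rs, ∃ e > 0, ∀ v q Rb F e0, q.c.Rs = Rs →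
  Ge f v q Rb → Cz f v q e → Et f v q (f.E v q F e0) Λ

/-- SGN: the gradient of the lid function is causal. -/
def SGN : Prop := ∀ f : Fx, f.Ok → ∀ Rs, ∃ e > 0, ∀ v q Rb F e0 (E : Est), q.c.Rs = Rs →
  Ge f v q Rb → Cz f v q e → E = f.E v q F e0 → ∀ x ∈ E.O1, 0 ≤ rv (E.G1.th E.sig) x ∧
    0 ≤ rv (E.G1.tp E.sig) x ∧
    ‖fv (E.G1.et E.sig) x‖ ^ 2 ≤ rv (E.G1.th E.sig) x * rv (E.G1.tp E.sig) x

/-- WND: the windows from the decay. -/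
def WND : Prop := ∀ f : Fx, f.Ok → ∀ c0 ≥ (0 : ℝ), ∀ C : ℝ → ℝ, Monotone C → ∃ C' ≥ (1 : ℝ),
  ∃ e > 0, ∀ v Rs Rb k n E e0 ε, f.z.R1 + 4 ≤ Rs → In f v Rs Rb k n C E e0 →
    Np f.z.M f.z.a f.H k (f.Dh Rs v.Lv) v.g f.z.R1 f.t0 c0 (C f.z.R1) e0 E v.y v.pq (v.M, v.a) →
    E ≤ e → e0 ≤ ε → ε ≤ 1 → (∀ x ∈ Un (f.Dh Rs v.Lv) Rs, eta f.z.M f.z.a k v.g (shr f.H x) ≤
      (ε * (1 + |(shr f.H x).1|) ^ (-(7 / 5) : ℝ)) ^ 2) →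
    ∀ u, Wn f v Rs k e0 Rs u (C' * ε) ∧
      (f.us - 1 ≤ u → Wn f v Rs k e0 (f.z.R1 + 3) u (C' * ε * w0 u))

/-- WNE: the windows from the bounds in the chart of the estimates. -/
def WNE : Prop := ∀ f : Fx, f.Ok → ∀ c0 ≥ (0 : ℝ), ∀ (k : ℕ) (Λ CN Ct : ℝ), ∃ c1 ≥ (1 : ℝ),
  ∃ C ≥ (1 : ℝ), ∀ L Rs, ∃ κ > 0, ∀ v q Rb e0 E' (E : Est), q.b.c0 = c1 → q.b.L0 = k → q.L = L →
    q.c.Rs = Rs → q.k ≤ κ → Ge f v q Rb → E.O1 = f.O1 v q → E.M = v.M → E.a = v.a → 0 ≤ e0 →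
    e0 ≤ E.e0 → Et f v q E Λ →
    Np f.z.M f.z.a f.H k (f.Dh Rs v.Lv) v.g f.z.R1 f.t0 c0 CN e0 E' v.y v.pq (v.M, v.a) →
    (∀ x ∈ Om (f.Dh Rs v.Lv), x.2.1 ≤ f.z.R1 + 1 →
      |(f.phi v (pj (hp' f.z.M f.A f.B (shr f.H x)))).1 - (v.y (pj (shr f.H x))).1| ≤ Ct) →
    (∀ Q, E.Tail (f.c q) ((f.c q).bt (f.c q).R1) Q →
      |E.M - (f.c q).M| + |E.a - (f.c q).a| ≤ C * (E.e0 + Q)) ∧
    ∀ ρ ≥ f.z.R1 + 3, ∀ x ∈ f.X1 v q, (f.ac v q x).2.1 ≤ ρ → ∀ A Q,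
      E.Past (f.c q) (E.eta k) ρ (f.ac v q x).1 A → E.Tail (f.c q) (f.ac v q x).1 Q →
      x.2.1 ≤ ρ + 1 / 4 ∧ Wn f v Rs k e0 (ρ + 1 / 4) x.1 (C * (A + Q))

/-- LAYH: the metric in the layer is that of the collar. -/
def LAYH : Prop := ∀ f v q Rb k L m e1 e dd gc, f.Ok → Ge f v q Rb →
  Sts f.z q.c.Rs Rb k L m e1 e dd gc v.Lv v.g → ∀ x ∈ f.O2 v q, 4 * f.z.R1 ≤ x.2.1 →
  0 ≤ uu f.z.M x + x.2.1 → uu f.z.M x + x.2.1 ≤ f.a.del * x.2.1 →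
  ∀ y ∈ P354F2.Seg f.z.M (f.z.R1 + 3) x, f.gE v q =ᶠ[𝓝 (pj y)] pb (sh f.A f.B) gc ∧
    P354YI.Sm m dd (gc - gin f.z.M f.z.a) (sh f.A f.B (pj y))

/-- TRI: the transfer of the decay, and the initial bound; C is the constant of scf. -/
def TRI : Prop := ∀ f : Fx, f.Ok → ∀ (Λ : ℝ) (L : ℕ) (q : Qn), ∃ T, ∀ C ≥ (1 : ℝ), ∃ Cl,
  ∀ Cl' ≥ Cl, ∀ v Rb F e dd (E : Est), E = f.E v q F (Cl' * dd) → Ge f v q Rb → Et f v q E Λ →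
    0 ≤ dd → dd ≤ e → (∀ p : R4, f.z.r1 < rd p → rd p ≤ q.c.Rs + 1 → p.1 - f.A (rd p) ≤ T →
      (f.z.pm q.c.Rs Rb).psi p < -1) →
    (∀ x, nq x = 1 → 0 < x.2.1 → x.2.1 ≤ q.c.Rs → f.z.Pt q.c.Rs Rb v.Lv (pj x) →
      x ∈ P354YA.KU f.z.M f.z.a v.g ∧
      eta f.z.M f.z.a L v.g x ≤ (C * e * (1 + |x.1|) ^ (-(7 / 5) : ℝ)) ^ 2 ∧
      (x.1 ≤ T → eta f.z.M f.z.a (q.c.K + 2) v.g x ≤ (C * dd) ^ 2)) →
    Tr f.z Rb (f.c q) L v.g E Cl' e dd ∧ ∀ x ∈ E.O1, An x →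
      x.1 ≤ (f.c q).t1 + (f.c q).B + 10 → E.eta ((f.c q).K + 2) x ≤ E.e0 ^ 2

/-- HYB: the near chart of the state. -/
def HYB : Prop := ∀ f : Fx, f.Ok → ∀ n, ∃ k ≥ 2, ∃ c0 ≥ (0 : ℝ), ∃ C : ℝ → ℝ, Monotone C ∧
  ∀ L ≥ k, ∀ Rs ≥ f.z.R1 + 4, ∃ E1 > 0, ∀ᶠ Rb in atTop, ∃ C1 ≥ (1 : ℝ), ∃ m0, ∀ m ≥ m0,
    ∀ e1 e dd gc Lv g, 0 ≤ e1 → dd ≤ e → C1 * (e1 + e) ≤ E1 → IsLowerSet Lv →
      Sts f.z Rs Rb k L m e1 e dd gc Lv g → ∃ v : Va, v.Lv = Lv ∧ v.g = g ∧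
        In f v Rs Rb k n C (C1 * (e1 + e)) (C1 * dd) ∧
        Np f.z.M f.z.a f.H k (f.Dh Rs Lv) g f.z.R1 f.t0 c0 (C f.z.R1) (C1 * dd) (C1 * (e1 + e))
          v.y v.pq (v.M, v.a) ∧
        (∀ p, f.z.Pt Rs Rb Lv p → rd p ≤ Rs → P354XE.Bd 2 (g - gin f.z.M f.z.a) p (e1 + e)) ∧
        ∀ x ∈ Un (f.Dh Rs Lv) Rs, eta f.z.M f.z.a k g (shr f.H x) ≤
          (C1 * e * (1 + |(shr f.H x).1|) ^ (-(7 / 5) : ℝ)) ^ 2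

end Vale.Agent.P354MG
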