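import Vale.Agent.P354Z.Skel
import Vale.Agent.P354XO.Cht
import Vale.Agent.P354YO.Fn

/-!
The link between the scaffold and the chart of the estimates.
-/

open scoped ContDiff
open Set Filter Topology

noncomputable section

namespace Vale.Agent.P354MG

open Vale.Agent.P354n (R4)
open Vale.Agent.P354XG (E6)
open Vale.Agent.P354XD (pj)
open Vale.Agent.P354XE (Tw Bd gin rd En)
open Vale.Agent.P354XV (Lv)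
open Vale.Agent.P354XO (Cht b4 dn4)
open Vale.Agent.P354YI (Jb)
open Vale.Agent.P354YO (sh IsTh)
open Vale.Agent.P354Z

/-- The scaffold with the low collar; X and tau do not depend on the collar. -/
def lo (z : Z1) (Rs : ℝ) : P354YT.Pm := z.pm Rs (z.R1 + 2)

/-- The chart a maps the cone U of the scaffold to the chart of the estimates; sh A B maps the
latter to the ingoing chart of the initial parameters, and tw is the time of a window in the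
collar. -/
structure Lc (z : Z1) (c : Cs) (gc g : Tw) (E : Est) (κ Cl e : ℝ) (U : Set E6) (a : E6 → E6)
    (A B : ℝ → ℝ) (tw : ℝ) : Prop where
  th : IsTh z.M z.M z.a A B
  cht : Cht U a
  met : E.g = P354XE.pb (b4 U a) g
  lv : ∃ W, Lv g W ∧ pj '' U ⊆ W
  det : ∀ x ∈ U, 0 < LinearMap.det (fderiv ℝ (dn4 a) (pj x) : R4 →ₗ[ℝ] R4)
  dom : ∀ x ∈ U, pj x ∈ En z.M z.a z.r1 z.θ ∧ (lo z c.Rs).tau (pj x) ∈ E.Lv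
  cov : ∀ x : E6, 0 < x.2.1 → x.2.2 ≠ 0 → pj x ∈ (lo z c.Rs).O → -1 ≤ (lo z c.Rs).psi (pj x) →
    (lo z c.Rs).tau (pj x) ∈ E.Lv → x ∈ U ∧ Est.Ab c (a x) ∧
      (c.R1 + 4 ≤ x.2.1 → a x ∈ E.O2 ∧ Est.Fa c (a x))
  o1 : E.O1 = a '' {x ∈ U | x.2.1 < c.Rs}
  o2 : E.O2 ⊆ a '' U
  sig : ∀ x ∈ U, a x ∈ E.O1 → rv E.sig (a x) = (lo z c.Rs).tau (pj x)
  tau : ∀ x ∈ U, a x ∈ E.O2 → rv E.tau (a x) = (lo z c.Rs).tau (pj x)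
  onto : E.Lv = univ → ∀ y : E6, y.2.2 ≠ 0 →
    (z.r1 + κ ≤ y.2.1 → y.2.1 ≤ c.Rs - 1 → Est.Ab c y → y ∈ E.O1) ∧ (Est.Fa c y → y ∈ E.O2)
  idn : ∀ x ∈ U, c.R1 + 3 ≤ (a x).2.1 → uu c.M (a x) ≤ -(2 * c.R1) →
    ∀ᶠ y in 𝓝 (pj x), sh A B (dn4 a y) = y
  ini : ∀ x ∈ U, x.2.1 < c.Rs → (a x).1 ≤ c.t1 →
    Jb c.N0 (fun y => sh A B (dn4 a y) - y) (pj x) (Cl * e)
  low : ∀ x ∈ U, (lo z c.Rs).psi (pj x) ≤ 1 → (a x).1 ≤ c.t1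
  big : 4 * c.R1 + 6 ≤ c.t1
  num : ∀ r ∈ Icc z.r1 (c.t1 + 6), c.bt r + 6 ≤ tw - A r ∧ tw - A r + 6 ≤ c.t1
  lay : ∀ p : R4, c.t1 ≤ rd p → p.1 - A (rd p) + 4 * c.M ^ 2 / rd p + rd p ≤ c.del * rd p →
    (lo z c.Rs).psi p < 0
  out : ∀ x ∈ U, c.t1 ≤ x.2.1 → x.1 ≤ tw + 6 →
    c.R1 + 3 ≤ (a x).2.1 ∧ uu c.M (a x) ≤ -(2 * c.R1)
  win : ∀ x : E6, x.2.2 ≠ 0 → z.r1 < x.2.1 → x.2.1 ≤ c.t1 + 6 → |x.1 - tw| ≤ 6 →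
    (lo z c.Rs).tau (pj x) ∈ E.Lv → x ∈ U ∧ Est.Ab c (a x) ∧ (a x).1 ≤ c.t1
  col : ∀ p ∈ En z.M z.a z.r1 z.θ, rd p ≤ c.t1 + 6 → p.1 ≤ tw + 6 →
    g =ᶠ[𝓝 p] gc ∧ Bd c.N0 (gc - gin z.M z.a) p (Cl * e)
  tm : ∀ x ∈ U, x.2.1 < c.Rs → |(a x).2.1 - x.2.1| ≤ κ ∧
    |(sh A B (dn4 a (pj x))).1 - x.1| ≤ κ * (1 + |x.1|)
  d2 : ∀ x ∈ U, x.2.1 < c.Rs → ‖fderiv ℝ (dn4 a) (pj x)‖ ≤ Cl ∧
    ‖fderiv ℝ (fderiv ℝ (dn4 a)) (pj x)‖ ≤ Cl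
  ext : ∀ V n, E.Lv = Iio V → ∃ C, ∀ x ∈ U, c.R1 + 4 ≤ x.2.1 → -1 ≤ (lo z c.Rs).psi (pj x) →
    Jb n (dn4 a) (pj x) C ∧ ∀ v, ‖v‖ ≤ C * ‖fderiv ℝ (dn4 a) (pj x) v‖

/-- The link. -/
def Lk : Link := fun z _ c gc g E κ Cl e =>
  ∃ U a A B tw, |A z.R1| ≤ Cl ∧ B z.R1 = 0 ∧ |tw| ≤ Cl ∧ Lc z c gc g E κ Cl e U a A B tw

end Vale.Agent.P354MG
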