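import Vale.Agent.P354XG.Int
import Vale.Agent.P354XG.Gron

/-!
Domination of the derivatives up to a fixed order n.
-/

open scoped ContDiff
open Set Filter Topology

namespace Vale.Agent.P354MG

open Vale.Agent.P354XG

variable {J E : Type} [NormedAddCommGroup E] [NormedSpace ℝ E] {F : Filter J} {K : J → Set E}
  {μ ν : ℕ → J → ℝ} {a b : Sm (nb F K)} {n : ℕ}

/-- The derivatives of order at most n are dominated by the weight. -/
def DN (n : ℕ) (μ : ℕ → J → ℝ) (a : Sm (nb F K)) : Prop :=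
  ∀ w : List E, w.length ≤ n → Dom0 μ (pdw w a)

theorem dn_of_dom (h : P354XG.Dom μ a) (n : ℕ) : DN n μ a := fun w _ => h w

theorem DN.le {m : ℕ} (h : DN n μ a) (e : m ≤ n) : DN m μ a := fun w hw => h w (hw.trans e)
theorem DN.dom0 (h : DN n μ a) : Dom0 μ a := h [] (Nat.zero_le _)
theorem DN.pd (h : DN (n + 1) μ a) (v : E) : DN n μ (pd v a) := fun w hw =>
  h (v :: w) (Nat.succ_le_succ hw)
theorem dn_zero_iff : DN 0 μ a ↔ Dom0 μ a :=
  ⟨DN.dom0, fun h w hw => by rw [List.length_eq_zero_iff.1 (Nat.le_zero.1 hw)]; exact h⟩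

theorem dn_succ (h0 : Dom0 μ a) (h : ∀ v, DN n μ (pd v a)) : DN (n + 1) μ a
  | [], _ => h0
  | v :: w, hw => h v w (Nat.le_of_succ_le_succ hw)

theorem dn_zero (hμ : Wgt μ) : DN n μ (0 : Sm (nb F K)) := dn_of_dom (dom_zero hμ) n

theorem DN.add (hμ : Wgt μ) (ha : DN n μ a) (hb : DN n μ b) : DN n μ (a + b) := fun w hw => by
  rw [pdw_add]; exact (ha w hw).add hμ (hb w hw)

theorem DN.mul (hμ : Wgt μ) (hν : Wgt ν) (ha : DN n μ a) (hb : DN n ν b) :
    DN n (μ * ν) (a * b) := by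
  induction n generalizing a b with
  | zero => exact dn_zero_iff.2 (ha.dom0.mul hμ hν hb.dom0)
  | succ n ih =>
    refine dn_succ (ha.dom0.mul hμ hν hb.dom0) fun v => ?_
    rw [D_mul, mul_comm b]
    exact (ih (ha.le n.le_succ) (hb.pd v)).add (hμ.mul hν) (ih (ha.pd v) (hb.le n.le_succ))

theorem DN.bmul (hμ : Wgt μ) (ha : DN n (w1 J) a) (hb : DN n μ b) : DN n μ (a * b) := by
  simpa only [w1_mul] using DN.mul wgt_one hμ ha hb

theorem dn_alg (z : ℂ) : DN n (w1 J) (algebraMap ℂ (Sm (nb F K)) z) := dn_of_dom (bd_alg z) n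

theorem dn_one : DN n (w1 J) (1 : Sm (nb F K)) := by
  simpa only [map_one] using dn_alg (F := F) (K := K) (n := n) 1

theorem DN.neg (hμ : Wgt μ) (ha : DN n μ a) : DN n μ (-a) := by
  simpa only [map_neg, map_one, neg_one_mul] using DN.bmul hμ (dn_alg (-1)) ha

theorem DN.sub (hμ : Wgt μ) (ha : DN n μ a) (hb : DN n μ b) : DN n μ (a - b) := by
  rw [sub_eq_add_neg]; exact ha.add hμ (hb.neg hμ)

theorem DN.cj (ha : DN n μ a) : DN n μ (cj a) := fun w hw => by
  rw [pdw_cj]; exact (ha w hw).cj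

theorem dn_sum {ι : Type*} (hμ : Wgt μ) (s : Finset ι) {f : ι → Sm (nb F K)}
    (h : ∀ i ∈ s, DN n μ (f i)) : DN n μ (∑ i ∈ s, f i) :=
  Finset.sum_induction f (DN n μ) (fun _ _ => DN.add hμ) (dn_zero hμ) h

theorem DN.mono (ha : DN n μ a) (h : ∀ k, ∃ k' C, 0 ≤ C ∧ ∀ᶠ j in F, μ k j ≤ C * ν k' j) :
    DN n ν a := fun w hw => (ha w hw).mono h

theorem pd_basis {G : Filter (J × E)} [Loc G] {ι : Type} [Fintype ι] (e : Module.Basis ι ℝ E)
    (v : E) (a : Sm G) : pd v a = ∑ i, algebraMap ℂ (Sm G) (e.repr v i : ℝ) * pd (e i) a := by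
  have z : pd (0 : E) a = 0 := by
    have := pd_smul_dir 0 (0 : E) a
    simpa using this
  have s : ∀ (t : Finset ι) (u : ι → E), pd (∑ i ∈ t, u i) a = ∑ i ∈ t, pd (u i) a := by
    intro t u
    induction t using Finset.cons_induction with
    | empty => exact z
    | cons i t hi ih => simp only [Finset.sum_cons, pd_add_dir, ih]
  conv_lhs => rw [← e.sum_repr v, s]
  simp only [pd_smul_dir]

theorem dn_basis {ι : Type} [Fintype ι] (e : Module.Basis ι ℝ E) (hμ : Wgt μ) (h0 : Dom0 μ a)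
    (h : ∀ i, DN n μ (pd (e i) a)) : DN (n + 1) μ a :=
  dn_succ h0 fun v => by
    rw [pd_basis e]
    exact dn_sum hμ _ fun i _ => DN.bmul hμ (dn_alg _) (h i)

/-- The top order part of a product. -/
theorem dn_comm (hμ : Wgt μ) {w : List E} (hw : w.length ≤ n + 1) (ha : DN (n + 1) (w1 J) a)
    (hb : DN n μ b) : Dom0 μ (pdw w (a * b) - a * pdw w b) := by
  induction w generalizing a b n with
  | nil => simp only [pdw, sub_self]; exact dom0_zero hμ
  | cons v w ih =>
    have hw' : w.length ≤ n := Nat.le_of_succ_le_succ hw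
    have e : pdw (v :: w) (a * b) - a * pdw (v :: w) b =
        (pdw w (a * pd v b) - a * pdw w (pd v b)) + pdw w (pd v a * b) := by
      simp only [pdw, D_mul, pdw_add, mul_comm b]; ring
    rw [e]
    refine Dom0.add hμ ?_ (DN.bmul hμ (ha.pd v) hb w hw')
    cases n with
    | zero =>
      rw [List.length_eq_zero_iff.1 (Nat.le_zero.1 hw')]
      simp only [pdw, sub_self]; exact dom0_zero hμ
    | succ n => exact ih hw' (ha.le (Nat.le_succ _)) (hb.pd v)

section
variable {G : Filter (J × E)} [Loc G]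
theorem pdw_pd (w : List E) (v : E) (a : Sm G) : pdw w (pd v a) = pd v (pdw w a) := by
  induction w generalizing a with
  | nil => rfl
  | cons u w ih => simp only [pdw, pd_comm u v, ih]
theorem pdw_sum {ι : Type*} (w : List E) (s : Finset ι) (f : ι → Sm G) :
    pdw w (∑ i ∈ s, f i) = ∑ i ∈ s, pdw w (f i) := by
  induction s using Finset.cons_induction with
  | empty => exact pdw_zero w
  | cons i s hi ih => simp only [Finset.sum_cons, pdw_add, ih]
theorem pdw_sub (w : List E) (a b : Sm G) : pdw w (a - b) = pdw w a - pdw w b := by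
  induction w generalizing a b with
  | nil => rfl
  | cons v w ih => simp only [pdw, D_sub, ih]
end

section pull
variable {E' : Type} [NormedAddCommGroup E'] [NormedSpace ℝ E'] {K' : J → Set E'}
  {X : J × E' → E}

theorem dn_pb [FiniteDimensional ℝ E] (h : Mp F K' K X) {ι ι' : Type} [Fintype ι] [Fintype ι']
    (e : Module.Basis ι ℝ E) (e' : Module.Basis ι' ℝ E') (hμ : Wgt μ)
    (ht : ∀ i l, DN n (w1 J) (pd (e' l) (h.co (bco e i)))) (ha : DN n μ a) :
    DN n μ (h.pb a) := by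
  induction n generalizing a with
  | zero => exact dn_zero_iff.2 (h.dom0 ha.dom0)
  | succ n ih =>
    refine dn_basis e' hμ (h.dom0 ha.dom0) fun l => ?_
    rw [h.pd_pb e]
    exact dn_sum hμ _ fun i _ => DN.bmul hμ ((ht i l).le n.le_succ)
      (ih (fun i l => (ht i l).le n.le_succ) (ha.pd _))

theorem dn_pb_aff {x0 : J → E} {L : E' →L[ℝ] E} (h : Mp F K' K (aff x0 L)) (ha : DN n μ a) :
    DN n μ (h.pb a) := by
  induction n generalizing a with
  | zero => exact dn_zero_iff.2 (h.dom0 ha.dom0)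
  | succ n ih => exact dn_succ (h.dom0 ha.dom0) fun v => by rw [pd_pb_aff]; exact ih (ha.pd _)

end pull

theorem dn_int [FiniteDimensional ℝ E] (hμ : Wgt μ) {a : Sm (nb F (cyl K))} (ha : DN n μ a) :
    DN n μ (int a) := by
  induction n generalizing a with
  | zero => exact dn_zero_iff.2 (ha.dom0.int hμ)
  | succ n ih => exact dn_succ (ha.dom0.int hμ) fun v => by rw [pd_int]; exact ih (ha.pd _)

/-- A linear system in all directions. -/
theorem dn_of_sys {ι κ : Type} [Fintype ι] [Fintype κ] (e : Module.Basis κ ℝ E) (hμ : Wgt μ)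
    (X : ι → Sm (nb F K)) (M : κ → ι → ι → Sm (nb F K)) (hM : ∀ l i k, DN n (w1 J) (M l i k))
    (he : ∀ l i, DN n μ (pd (e l) (X i) - ∑ k, M l i k * X k)) (h0 : ∀ i, Dom0 μ (X i)) (i : ι) :
    DN n μ (X i) := by
  induction n generalizing i with
  | zero => exact dn_zero_iff.2 (h0 i)
  | succ n ih =>
    refine dn_basis e hμ (h0 i) fun l => ?_
    have := ((he l i).le n.le_succ).add hμ (dn_sum hμ Finset.univ fun k _ =>
      DN.bmul hμ ((hM l i k).le n.le_succ)
        (ih (fun l i k => (hM l i k).le n.le_succ) (fun l i => (he l i).le n.le_succ) k))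
    rwa [sub_add_cancel] at this

/-! ### Transport in a fixed direction -/

/-- Every point of K j is reached from K0 j by a segment in K j in the direction of d, of
parameter length at most L. -/
def Ray (F : Filter J) (K K0 : J → Set E) (d : E) : Prop :=
  ∃ L, ∀ᶠ j in F, ∀ y ∈ K j, ∃ s : ℝ, |s| ≤ L ∧ y - s • d ∈ K0 j ∧ segment ℝ (y - s • d) y ⊆ K j

theorem ray_gron {V : Type} [NormedAddCommGroup V] [NormedSpace ℝ V] {f : E → V} {S : Set E}
    {A B L : ℝ} (hA : 0 ≤ A) (hB : 0 ≤ B) {d : E} (hd : ∀ z ∈ S, DifferentiableAt ℝ f z)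
    (hb : ∀ z ∈ S, ‖fderiv ℝ f z d‖ ≤ A * ‖f z‖ + B) {y : E} {s : ℝ} (hL : |s| ≤ L)
    (hs : segment ℝ (y - s • d) y ⊆ S) :
    ‖f y‖ ≤ Real.exp (L * A + 1) * (‖f (y - s • d)‖ + L * B) := by
  have mem : ∀ t : ℝ, t ∈ segment ℝ (0 : ℝ) 1 → y - s • d + t • (s • d) ∈ S := fun t ht => by
    rw [segment_eq_Icc zero_le_one] at ht
    refine hs ?_
    rw [segment_eq_image']
    exact ⟨t, ht, by simp⟩
  have der : ∀ t : ℝ, y - s • d + t • (s • d) ∈ S → HasDerivAt
      (fun t : ℝ => f (y - s • d + t • (s • d))) (fderiv ℝ f (y - s • d + t • (s • d)) (s • d)) t :=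
    fun t ht => HasFDerivAt.comp_hasDerivAt (l := f) t (hd _ ht).hasFDerivAt
      (by simpa using ((hasDerivAt_id t).smul_const (s • d)).const_add (y - s • d))
  have L0 : 0 ≤ L := (abs_nonneg s).trans hL
  have := seg_gron (E := ℝ) (f := fun t : ℝ => f (y - s • d + t • (s • d)))
    (S := segment ℝ (0 : ℝ) 1) (A := L * A) (B := L * B) (L := 1) (by positivity) (by positivity)
    (fun t ht => (der t (mem t ht)).differentiableAt) (fun t ht w => by
      rw [(der t (mem t ht)).hasFDerivAt.fderiv]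
      simp only [ContinuousLinearMap.toSpanSingleton_apply, norm_smul, map_smul, Real.norm_eq_abs]
      refine mul_le_mul_of_nonneg_left ?_ (abs_nonneg w)
      have := mul_le_mul hL (hb _ (mem t ht)) (norm_nonneg _) L0
      linarith) (x := 0) (y := 1) subset_rfl (by simp)
  simpa using this

theorem tg0 {K0 : J → Set E} {d : E} {ι : Type} [Fintype ι] (hμ : Wgt μ) (hr : Ray F K K0 d)
    (hs : ∀ᶠ j in F, K0 j ⊆ K j) (X : ι → Sm (nb F K)) (M : ι → ι → Sm (nb F K))
    (hM : ∀ i k, Dom0 (w1 J) (M i k)) (he : ∀ i, Dom0 μ (pd d (X i) - ∑ k, M i k * X k))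
    (h0 : ∀ i, Dom0 μ (res hs (X i))) (i : ι) : Dom0 μ (X i) := by
  obtain ⟨L, hr⟩ := hr
  obtain ⟨_, C1, hC1, h1⟩ := dom0_unif wgt_one (a := fun q : ι × ι => M q.1 q.2) fun q => hM _ _
  obtain ⟨k2, C2, hC2, h2⟩ := dom0_unif hμ he
  obtain ⟨k3, C3, hC3, h3⟩ := dom0_unif hμ h0
  refine ⟨max k2 k3, Real.exp (L * (Fintype.card ι * C1) + 1) * (C3 + |L| * C2), by positivity, ?_⟩
  have e1 : ∀ᶠ p in nb F K, ∀ i, fderiv ℝ (sl (rep (X i)) p.1) p.2 d =
      rep (pd d (X i) - ∑ k, M i k * X k) p + ∑ k, rep (M i k) p * rep (X k) p := by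
    refine eventually_all.2 fun i => ?_
    filter_upwards [rep_pd d (X i), rep_sub (pd d (X i)) (∑ k, M i k * X k),
      rep_sum Finset.univ fun k => M i k * X k,
      eventually_all.2 fun k => rep_mul (M i k) (X k)] with p h1 h2 h3 h4
    rw [h2, Pi.sub_apply, h3, h1]
    simp only [h4, Pi.mul_apply, pdF, sub_add_cancel]
  have e2 : ∀ᶠ p in nb F K, ∀ i, DifferentiableAt ℝ (sl (rep (X i)) p.1) p.2 :=
    eventually_all.2 fun i => (rep_sm (X i)).diff
  have e3 : ∀ᶠ p in nb F K0, ∀ i, rep (res hs (X i)) p = rep (X i) p :=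
    eventually_all.2 fun i => rep_res hs (X i)
  filter_upwards [hr, h1, h2, h3, ev_nb_on e1, ev_nb_on e2, ev_nb_on e3] with j hr h1 h2 h3
    e1 e2 e3 y hy
  obtain ⟨s, hL, hy0, hseg⟩ := hr y hy
  have m0 := hμ.nonneg (max k2 k3) j
  have m2 := mul_le_mul_of_nonneg_left (hμ.mono k2 _ j (le_max_left k2 k3)) hC2
  have m3 := mul_le_mul_of_nonneg_left (hμ.mono k3 _ j (le_max_right k2 k3)) hC3
  have := ray_gron (f := fun z i => rep (X i) (j, z)) (S := K j) (A := Fintype.card ι * C1)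
    (B := C2 * μ (max k2 k3) j) (by positivity) (by positivity)
    (fun z hz => differentiableAt_pi.2 (e2 z hz)) (fun z hz => ?_) hL hseg
  · refine ((norm_le_pi_norm (fun i => rep (X i) (j, y)) i).trans this).trans ?_
    rw [mul_assoc]
    refine mul_le_mul_of_nonneg_left ?_ (Real.exp_pos _).le
    have f0 : ‖fun i => rep (X i) (j, y - s • d)‖ ≤ C3 * μ (max k2 k3) j :=
      (pi_norm_le_iff_of_nonneg (by positivity)).2 fun i => by
        rw [← e3 _ hy0 i]; exact (h3 _ hy0 i).trans m3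
    have := mul_le_mul_of_nonneg_right (le_abs_self L) (show 0 ≤ C2 * μ (max k2 k3) j by positivity)
    nlinarith
  · refine (pi_norm_le_iff_of_nonneg (by positivity)).2 fun i => ?_
    have ef : fderiv ℝ (fun z i => rep (X i) (j, z)) z = _ := fderiv_pi (e2 z hz)
    rw [ef, ContinuousLinearMap.pi_apply]
    refine (congrArg norm (e1 z hz i)).trans_le ((norm_add_le _ _).trans ?_)
    rw [add_comm]
    refine add_le_add ((norm_sum_le _ _).trans ?_) ((h2 z hz i).trans m2)
    refine (Finset.sum_le_card_nsmul _ _ (C1 * ‖fun i => rep (X i) (j, z)‖) fun k _ => ?_).trans_eq ?_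
    · rw [norm_mul]
      refine mul_le_mul ?_ (norm_le_pi_norm (fun i => rep (X i) (j, z)) k) (norm_nonneg _) hC1
      simpa [w1] using h1 z hz (i, k)
    · simp [mul_assoc]

theorem pdw_res {K0 : J → Set E} (hs : ∀ᶠ j in F, K0 j ⊆ K j) (w : List E) (a : Sm (nb F K)) :
    pdw w (res hs a) = res hs (pdw w a) := by
  induction w generalizing a with
  | nil => rfl
  | cons v w ih => simp only [pdw, pd_res, ih]

/-- Transport with derivatives. -/
theorem dn_tg {K0 : J → Set E} {d : E} {ι : Type} [Fintype ι] (hμ : Wgt μ) (hr : Ray F K K0 d)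
    (hs : ∀ᶠ j in F, K0 j ⊆ K j) (X : ι → Sm (nb F K)) (M : ι → ι → Sm (nb F K))
    (hM : ∀ i k, DN n (w1 J) (M i k)) (he : ∀ i, DN n μ (pd d (X i) - ∑ k, M i k * X k))
    (h0 : ∀ i, DN n μ (res hs (X i))) (i : ι) : DN n μ (X i) := by
  induction n generalizing i with
  | zero =>
    exact dn_zero_iff.2 (tg0 hμ hr hs X M (fun i k => (hM i k).dom0) (fun i => (he i).dom0)
      (fun i => (h0 i).dom0) i)
  | succ n ih =>
    have ih := ih (fun i k => (hM i k).le n.le_succ) (fun i => (he i).le n.le_succ)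
      fun i => (h0 i).le n.le_succ
    intro w hw
    refine tg0 hμ hr hs (fun i => pdw w (X i)) M (fun i k => (hM i k).dom0) (fun i => ?_)
      (fun i => by rw [← pdw_res]; exact h0 i w hw) i
    have := (he i w hw).add hμ (dom0_sum hμ Finset.univ fun k _ => dn_comm hμ hw (hM i k) (ih k))
    rwa [pdw_sub, pdw_pd, pdw_sum, Finset.sum_sub_distrib, sub_add_sub_cancel] at this

end Vale.Agent.P354MG
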