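import Vale.Agent.P354MG.Dn

/-!
Graded domination: the derivatives of order n are dominated by the weight of order n + c, with a
loss c which does not depend on n, and with constants which may depend on a parameter θ.
-/

open scoped ContDiff
open Set Filter Topology

namespace Vale.Agent.P354MG

open Vale.Agent.P354XG hiding Dom Dom0 Bd bdSub domI Keeps Low dom0_mk dom0_zero dom0_cst dom_of
  dom_zero dom_cst bd_alg dom_sum dom0_sum keeps_pd keeps_zero keeps_sum bd_closure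

/-- A grading of the filter F: ph k θ is the filter of the families with the parameter θ which
are controlled up to the order k. -/
class Gr {J : Type} (F : Filter J) where
  Th : Type
  th (F) : J → Th
  ph (F) : ℕ → Th → Filter J
  anti : ∀ θ k k', k ≤ k' → ph k' θ ≤ ph k θ
  th_eq : ∀ k θ, ∀ᶠ j in ph k θ, th j = θ
  ev : ∀ P : J → Prop, (∀ᶠ j in F, P j) ↔ ∃ k, ∀ θ, ∀ᶠ j in ph k θ, P j

export Gr (Th th ph)

/-- The trivial grading. -/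
@[reducible] def Gr.triv {J : Type} (F : Filter J) : Gr F where
  Th := Unit
  th _ := ()
  ph _ _ := F
  anti _ _ _ _ := le_rfl
  th_eq _ _ := Eventually.of_forall fun _ => rfl
  ev _ := ⟨fun h => ⟨0, fun _ => h⟩, fun ⟨_, h⟩ => h ()⟩

/-- The pairs (n, k) with k - n large. -/
noncomputable def gr : Filter (ℕ × ℕ) := comap (fun q => (q.2 : ℤ) - q.1) atTop

theorem ev_gr {P : ℕ × ℕ → Prop} : (∀ᶠ q in gr, P q) ↔ ∃ c, ∀ n k, n + c ≤ k → P (n, k) := by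
  rw [gr, eventually_comap, eventually_atTop]
  constructor
  · rintro ⟨c, h⟩
    exact ⟨c.toNat, fun n k e => h _ (by omega) (n, k) rfl⟩
  · rintro ⟨c, h⟩
    exact ⟨c, fun b hb q e => h q.1 q.2 (by omega)⟩

theorem ev_gr2 {P : ℕ → Prop} : (∀ᶠ q in gr, P q.2) ↔ ∀ᶠ k in atTop, P k := by
  rw [ev_gr, eventually_atTop]
  exact ⟨fun ⟨c, h⟩ => ⟨c, fun k e => h 0 k (by omega)⟩,
    fun ⟨c, h⟩ => ⟨c, fun n k e => h k (by omega)⟩⟩

theorem ev_succ {P : ℕ × ℕ → Prop} (h : ∀ᶠ q in gr, P q) : ∀ᶠ q in gr, P (q.1 + 1, q.2) := by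
  obtain ⟨c, h⟩ := ev_gr.1 h
  exact ev_gr.2 ⟨c + 1, fun n k e => h _ _ (by omega)⟩

theorem ev_le {P : ℕ × ℕ → Prop} (h : ∀ᶠ q in gr, P q) : ∀ᶠ q in gr, ∀ m ≤ q.1, P (m, q.2) := by
  obtain ⟨c, h⟩ := ev_gr.1 h
  exact ev_gr.2 ⟨c, fun n k e m hm => h _ _ (by simp only at hm; omega)⟩

variable {J E : Type} [NormedAddCommGroup E] [NormedSpace ℝ E] {F : Filter J} {K : J → Set E}

/-- Iterated derivatives of a family of functions. -/
noncomputable def pw : List E → (J × E → ℂ) → J × E → ℂ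
  | [], f => f
  | v :: w, f => pw w (pdF v f)

/-- The derivatives of f of order at most n are dominated by m on the sets K j. -/
def Tn (F : Filter J) (K : J → Set E) (n : ℕ) (m : J → ℝ) (f : J × E → ℂ) : Prop :=
  ∀ w : List E, w.length ≤ n → ∃ C, 0 ≤ C ∧ ∀ᶠ j in F, ∀ x ∈ K j, ‖pw w f (j, x)‖ ≤ C * m j

theorem Tn.filter {F' : Filter J} {n : ℕ} {m : J → ℝ} {f : J × E → ℂ} (h : Tn F K n m f)
    (e : F' ≤ F) : Tn F' K n m f := fun w hw =>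
  (h w hw).imp fun _ h => ⟨h.1, h.2.filter_mono e⟩

theorem rep_pdw {G : Filter (J × E)} [Loc G] (w : List E) {b : Sm G} {f : J × E → ℂ}
    (h : rep b =ᶠ[G] f) : rep (pdw w b) =ᶠ[G] pw w f := by
  induction w generalizing b f with
  | nil => exact h
  | cons v w ih => exact ih ((rep_pd v b).trans (pdF_congr h v))

/-- The weight of order k as a constant sequence. -/
def cw (μ : ℕ → J → ℝ) (k : ℕ) : ℕ → J → ℝ := fun _ => μ k

theorem wgt_cw {μ : ℕ → J → ℝ} (h : Wgt μ) (k : ℕ) : Wgt (cw μ k) :=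
  ⟨fun _ j => h.nonneg k j, fun _ _ _ _ => le_rfl⟩

theorem old0_iff {m : J → ℝ} {b : Sm (nb F K)} {f : J × E → ℂ} (h : rep b =ᶠ[nb F K] f) :
    P354XG.Dom0 (fun _ => m) b ↔ ∃ C, 0 ≤ C ∧ ∀ᶠ j in F, ∀ x ∈ K j, ‖f (j, x)‖ ≤ C * m j :=
  ⟨fun ⟨_, C, hC, e⟩ => ⟨C, hC, (e.and (ev_nb_on h)).mono fun _ e x hx => e.2 x hx ▸ e.1 x hx⟩,
    fun ⟨C, hC, e⟩ => ⟨0, C, hC, (e.and (ev_nb_on h)).mono fun _ e x hx =>
      (e.2 x hx).symm ▸ e.1 x hx⟩⟩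

theorem tn_iff {n : ℕ} {m : J → ℝ} {b : Sm (nb F K)} {f : J × E → ℂ} (h : rep b =ᶠ[nb F K] f) :
    Tn F K n m f ↔ DN n (fun _ => m) b :=
  forall₂_congr fun w _ => (old0_iff (rep_pdw w h)).symm

variable [Gr F]

theorem evj {P : J → Prop} (h : ∀ᶠ j in F, P j) : ∀ᶠ q in gr, ∀ θ, ∀ᶠ j in ph F q.2 θ, P j := by
  obtain ⟨c, h⟩ := (Gr.ev P).1 h
  exact ev_gr.2 ⟨c, fun n k e θ => (h θ).filter_mono (Gr.anti θ _ _ (by omega))⟩

theorem evk {P : J → Prop} (h : ∀ᶠ j in F, P j) : ∀ᶠ k in atTop, ∀ θ, ∀ᶠ j in ph F k θ, P j :=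
  (ev_gr2 (P := fun k => ∀ θ, ∀ᶠ j in ph F k θ, P j)).1 (evj h)

theorem evj_of {P : J → Prop} (h : ∀ᶠ q in gr, ∀ θ, ∀ᶠ j in ph F q.2 θ, P j) : ∀ᶠ j in F, P j := by
  obtain ⟨c, h⟩ := ev_gr.1 h
  exact (Gr.ev P).2 ⟨c, h 0 c (by omega)⟩

omit [NormedSpace ℝ E] in
theorem evg {P : J × E → Prop} (h : ∀ᶠ p in nb F K, P p) :
    ∀ᶠ q in gr, ∀ θ, ∀ᶠ p in nb (ph F q.2 θ) K, P p :=
  (evj (ev_nb.1 h)).mono fun _ h θ => ev_nb.2 (h θ)

open Classical in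
/-- The family a along the filter ph k θ. -/
noncomputable def lf (k : ℕ) (θ : Th F) (a : Sm (nb F K)) : Sm (nb (ph F k θ) K) :=
  if h : SmF (nb (ph F k θ) K) (rep a) then mk _ h else 0

theorem rep_lf (a : Sm (nb F K)) :
    ∀ᶠ q in gr, ∀ θ, rep (lf q.2 θ a) =ᶠ[nb (ph F q.2 θ) K] rep a :=
  (evg (rep_sm a)).mono fun q h θ => by
    rw [lf, dif_pos (show SmF _ (rep a) from h θ)]; exact rep_mk _ _

theorem rep_lf' {a : Sm (nb F K)} {f : J × E → ℂ} (h : rep a =ᶠ[nb F K] f) :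
    ∀ᶠ q in gr, ∀ θ, rep (lf q.2 θ a) =ᶠ[nb (ph F q.2 θ) K] f :=
  ((rep_lf a).and (evg h)).mono fun _ h θ => (h.1 θ).trans (h.2 θ)

theorem lf_add (a b : Sm (nb F K)) :
    ∀ᶠ q in gr, ∀ θ, lf q.2 θ (a + b) = lf q.2 θ a + lf q.2 θ b := by
  filter_upwards [rep_lf a, rep_lf b, rep_lf' (rep_add a b)] with q h1 h2 h3 θ
  exact ext_rep ((h3 θ).trans ((rep_add _ _).trans ((h1 θ).add (h2 θ))).symm)

theorem lf_mul (a b : Sm (nb F K)) :
    ∀ᶠ q in gr, ∀ θ, lf q.2 θ (a * b) = lf q.2 θ a * lf q.2 θ b := by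
  filter_upwards [rep_lf a, rep_lf b, rep_lf' (rep_mul a b)] with q h1 h2 h3 θ
  exact ext_rep ((h3 θ).trans ((rep_mul _ _).trans ((h1 θ).mul (h2 θ))).symm)

theorem lf_sub (a b : Sm (nb F K)) :
    ∀ᶠ q in gr, ∀ θ, lf q.2 θ (a - b) = lf q.2 θ a - lf q.2 θ b := by
  filter_upwards [rep_lf a, rep_lf b, rep_lf' (rep_sub a b)] with q h1 h2 h3 θ
  exact ext_rep ((h3 θ).trans ((rep_sub _ _).trans ((h1 θ).sub (h2 θ))).symm)

theorem lf_pd (v : E) (a : Sm (nb F K)) :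
    ∀ᶠ q in gr, ∀ θ, lf q.2 θ (pd v a) = pd v (lf q.2 θ a) := by
  filter_upwards [rep_lf a, rep_lf' (rep_pd v a)] with q h1 h2 θ
  exact ext_rep ((h2 θ).trans ((rep_pd _ _).trans (pdF_congr (h1 θ) v)).symm)

theorem lf_cj (a : Sm (nb F K)) : ∀ᶠ q in gr, ∀ θ, lf q.2 θ (cj a) = cj (lf q.2 θ a) := by
  filter_upwards [rep_lf a, rep_lf' (rep_cj a)] with q h1 h2 θ
  exact ext_rep ((h2 θ).trans ((rep_cj _).trans ((h1 θ).fun_comp _)).symm)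

theorem lf_cst (c : J → ℂ) : ∀ᶠ q in gr, ∀ θ, lf q.2 θ (cst c : Sm (nb F K)) = cst c := by
  filter_upwards [rep_lf' (rep_mk (G := nb F K) _ (smF_const c))] with q h θ
  exact ext_rep ((h θ).trans (rep_mk _ (smF_const c)).symm)

theorem lf_zero : ∀ᶠ q in gr, ∀ θ, lf q.2 θ (0 : Sm (nb F K)) = 0 := lf_cst fun _ => 0

theorem lf_sum {ι : Type*} (s : Finset ι) (a : ι → Sm (nb F K)) :
    ∀ᶠ q in gr, ∀ θ, lf q.2 θ (∑ i ∈ s, a i) = ∑ i ∈ s, lf q.2 θ (a i) := by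
  induction s using Finset.cons_induction with
  | empty => exact lf_zero
  | cons i s hi ih =>
    simp only [Finset.sum_cons]
    filter_upwards [lf_add (a i) (∑ i ∈ s, a i), ih] with q h1 h2 θ
    rw [h1, h2]

/-- The left side of a linear system. -/
theorem lf_sys {ι : Type} [Fintype ι] (v : E) (a : Sm (nb F K)) (M X : ι → Sm (nb F K)) :
    ∀ᶠ q in gr, ∀ θ, lf q.2 θ (pd v a - ∑ k, M k * X k) =
      pd v (lf q.2 θ a) - ∑ k, lf q.2 θ (M k) * lf q.2 θ (X k) := by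
  filter_upwards [lf_sub (pd v a) (∑ k, M k * X k), lf_pd v a,
    lf_sum Finset.univ fun k => M k * X k, eventually_all.2 fun k => lf_mul (M k) (X k)]
    with q h1 h2 h3 h4 θ
  simp only [h1, h2, h3, h4]

/-- The values of a are dominated by the weight. -/
def Dom0 (μ : ℕ → J → ℝ) (a : Sm (nb F K)) : Prop :=
  ∀ᶠ k in atTop, ∀ θ, ∃ C, 0 ≤ C ∧ ∀ᶠ j in ph F k θ, ∀ x ∈ K j, ‖rep a (j, x)‖ ≤ C * μ k j

/-- The derivatives of order n of a are dominated by the weight of order n + c. -/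
def Dom (μ : ℕ → J → ℝ) (a : Sm (nb F K)) : Prop :=
  ∀ᶠ q in gr, ∀ θ, Tn (ph F q.2 θ) K q.1 (μ q.2) (rep a)

/-- All derivatives are bounded. -/
abbrev Bd (a : Sm (nb F K)) : Prop := Dom (w1 J) a

variable {μ ν : ℕ → J → ℝ} {a b : Sm (nb F K)}

theorem dom_iff : Dom μ a ↔ ∀ᶠ q in gr, ∀ θ, DN q.1 (cw μ q.2) (lf q.2 θ a) :=
  eventually_congr ((rep_lf a).mono fun _ h => forall_congr' fun θ => tn_iff (h θ))

theorem dom0_iff : Dom0 μ a ↔ ∀ᶠ q in gr, ∀ θ, P354XG.Dom0 (cw μ q.2) (lf q.2 θ a) :=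
  ev_gr2.symm.trans
    (eventually_congr ((rep_lf a).mono fun _ h => forall_congr' fun θ => (old0_iff (h θ)).symm))

theorem dom_of_tn {f : J × E → ℂ} (h : rep a =ᶠ[nb F K] f)
    (e : ∀ᶠ q in gr, ∀ θ, Tn (ph F q.2 θ) K q.1 (μ q.2) f) : Dom μ a :=
  dom_iff.2 ((e.and (rep_lf' h)).mono fun _ h θ => (tn_iff (h.2 θ)).1 (h.1 θ))

theorem Dom.tn {f : J × E → ℂ} (e : Dom μ a) (h : rep a =ᶠ[nb F K] f) :
    ∀ᶠ q in gr, ∀ θ, Tn (ph F q.2 θ) K q.1 (μ q.2) f :=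
  ((dom_iff.1 e).and (rep_lf' h)).mono fun _ h θ => (tn_iff (h.2 θ)).2 (h.1 θ)

theorem dom0_of (hμ : Wgt μ) {f : J × E → ℂ} (h : rep a =ᶠ[nb F K] f) (k : ℕ)
    (e : ∀ θ, ∃ C, 0 ≤ C ∧ ∀ᶠ j in ph F k θ, ∀ x ∈ K j, ‖f (j, x)‖ ≤ C * μ k j) : Dom0 μ a := by
  filter_upwards [evk (ev_nb_on h), eventually_ge_atTop k] with k' h1 hk θ
  obtain ⟨C, hC, e⟩ := e θ
  refine ⟨C, hC, ?_⟩
  filter_upwards [h1 θ, e.filter_mono (Gr.anti θ _ _ hk)] with j h1 h2 x hx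
  rw [h1 x hx]
  exact (h2 x hx).trans (mul_le_mul_of_nonneg_left (hμ.mono _ _ j hk) hC)

theorem dom0_mk (hμ : Wgt μ) {f : J × E → ℂ} {hf : SmF (nb F K) f} (k : ℕ) (C : ℝ) (hC : 0 ≤ C)
    (h : ∀ᶠ j in F, ∀ x ∈ K j, ‖f (j, x)‖ ≤ C * μ k j) : Dom0 μ (mk f hf) := by
  obtain ⟨c, h⟩ := ev_gr.1 (evj h)
  refine dom0_of hμ (rep_mk f hf) (max k c) fun θ => ⟨C, hC, ?_⟩
  exact (h 0 (max k c) (by omega) θ).mono fun j h x hx =>
    (h x hx).trans (mul_le_mul_of_nonneg_left (hμ.mono _ _ j (le_max_left k c)) hC)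

theorem dom0_old (hμ : Wgt μ) (h : P354XG.Dom0 μ a) : Dom0 μ a := by
  obtain ⟨k, C, hC, h⟩ := h
  rw [← mk_rep a]
  exact dom0_mk hμ k C hC h

theorem Dom.dom0 (h : Dom μ a) : Dom0 μ a :=
  dom0_iff.2 ((dom_iff.1 h).mono fun _ h θ => (h θ).dom0)

theorem Dom.pd (h : Dom μ a) (v : E) : Dom μ (pd v a) := by
  rw [dom_iff] at h ⊢
  filter_upwards [ev_succ h, lf_pd v a] with q h1 h2 θ
  rw [h2]; exact (h1 θ).pd v

theorem dom_zero (hμ : Wgt μ) : Dom μ (0 : Sm (nb F K)) :=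
  dom_iff.2 (lf_zero.mono fun q h θ => by rw [h]; exact dn_zero (wgt_cw hμ _))

theorem dom0_zero (hμ : Wgt μ) : Dom0 μ (0 : Sm (nb F K)) := (dom_zero hμ).dom0

theorem Dom.add (hμ : Wgt μ) (ha : Dom μ a) (hb : Dom μ b) : Dom μ (a + b) := by
  rw [dom_iff] at ha hb ⊢
  filter_upwards [ha, hb, lf_add a b] with q h1 h2 h3 θ
  rw [h3]; exact (h1 θ).add (wgt_cw hμ _) (h2 θ)

theorem Dom0.add (hμ : Wgt μ) (ha : Dom0 μ a) (hb : Dom0 μ b) : Dom0 μ (a + b) := by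
  rw [dom0_iff] at ha hb ⊢
  filter_upwards [ha, hb, lf_add a b] with q h1 h2 h3 θ
  rw [h3]; exact (h1 θ).add (wgt_cw hμ _) (h2 θ)

theorem Dom.mul (hμ : Wgt μ) (hν : Wgt ν) (ha : Dom μ a) (hb : Dom ν b) :
    Dom (μ * ν) (a * b) := by
  rw [dom_iff] at ha hb ⊢
  filter_upwards [ha, hb, lf_mul a b] with q h1 h2 h3 θ
  rw [h3]; exact (h1 θ).mul (wgt_cw hμ _) (wgt_cw hν _) (h2 θ)

theorem Dom0.mul (hμ : Wgt μ) (hν : Wgt ν) (ha : Dom0 μ a) (hb : Dom0 ν b) :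
    Dom0 (μ * ν) (a * b) := by
  rw [dom0_iff] at ha hb ⊢
  filter_upwards [ha, hb, lf_mul a b] with q h1 h2 h3 θ
  rw [h3]; exact (h1 θ).mul (wgt_cw hμ _) (wgt_cw hν _) (h2 θ)

theorem Dom.cj (ha : Dom μ a) : Dom μ (cj a) := by
  rw [dom_iff] at ha ⊢
  filter_upwards [ha, lf_cj a] with q h1 h2 θ
  rw [h2]; exact (h1 θ).cj

theorem Dom0.cj (ha : Dom0 μ a) : Dom0 μ (cj a) := by
  rw [dom0_iff] at ha ⊢
  filter_upwards [ha, lf_cj a] with q h1 h2 θ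
  rw [h2]; exact (h1 θ).cj

variable (F) in
/-- The weight μ is dominated by the weight ν. -/
def Le (μ ν : ℕ → J → ℝ) : Prop :=
  ∃ c, ∀ k θ, ∃ C, 0 ≤ C ∧ ∀ᶠ j in ph F (k + c) θ, μ k j ≤ C * ν (k + c) j

theorem le_of_le (h : ∀ k j, μ k j ≤ ν k j) : Le F μ ν :=
  ⟨0, fun k _ => ⟨1, zero_le_one, Eventually.of_forall fun j => by simpa using h k j⟩⟩

theorem Dom.mono (ha : Dom μ a) (h : Le F μ ν) : Dom ν a := by
  obtain ⟨c, ha⟩ := ev_gr.1 ha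
  obtain ⟨c', h⟩ := h
  refine ev_gr.2 ⟨c + c', fun n k e θ w hw => ?_⟩
  obtain ⟨k, rfl⟩ : ∃ k', k = k' + c' := ⟨k - c', by omega⟩
  obtain ⟨C, hC, h1⟩ := ha n k (by omega) θ w hw
  obtain ⟨C', hC', h2⟩ := h k θ
  refine ⟨C * C', mul_nonneg hC hC', ?_⟩
  filter_upwards [h1.filter_mono (Gr.anti θ _ _ (Nat.le_add_right k c')), h2] with j h1 h2 x hx
  exact (h1 x hx).trans ((mul_le_mul_of_nonneg_left h2 hC).trans_eq (by ring))

theorem Dom0.mono (ha : Dom0 μ a) (h : Le F μ ν) : Dom0 ν a := by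
  obtain ⟨c, ha⟩ := eventually_atTop.1 ha
  obtain ⟨c', h⟩ := h
  refine eventually_atTop.2 ⟨c + c', fun k e θ => ?_⟩
  obtain ⟨k, rfl⟩ : ∃ k', k = k' + c' := ⟨k - c', by omega⟩
  obtain ⟨C, hC, h1⟩ := ha k (by omega) θ
  obtain ⟨C', hC', h2⟩ := h k θ
  refine ⟨C * C', mul_nonneg hC hC', ?_⟩
  filter_upwards [h1.filter_mono (Gr.anti θ _ _ (Nat.le_add_right k c')), h2] with j h1 h2 x hx
  exact (h1 x hx).trans ((mul_le_mul_of_nonneg_left h2 hC).trans_eq (by ring))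

theorem Dom.bmul (hμ : Wgt μ) (ha : Bd a) (hb : Dom μ b) : Dom μ (a * b) := by
  simpa only [w1_mul] using Dom.mul wgt_one hμ ha hb

theorem Dom0.bmul (hμ : Wgt μ) (ha : Dom0 (w1 J) a) (hb : Dom0 μ b) : Dom0 μ (a * b) := by
  simpa only [w1_mul] using Dom0.mul wgt_one hμ ha hb

theorem dom_cst (hμ : Wgt μ) (c : J → ℂ) (h : Dom0 μ (cst c : Sm (nb F K))) :
    Dom μ (cst c : Sm (nb F K)) := by
  rw [dom0_iff] at h
  rw [dom_iff]
  filter_upwards [h, lf_cst (F := F) (K := K) c] with q h1 h2 θ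
  have h1 := h1 θ
  rw [h2] at h1 ⊢
  exact dn_of_dom (P354XG.dom_cst (wgt_cw hμ _) c h1) _

theorem dom0_cst (hμ : Wgt μ) (c : J → ℂ) (k : ℕ)
    (h : ∀ θ, ∃ C, 0 ≤ C ∧ ∀ᶠ j in ph F k θ, ‖c j‖ ≤ C * μ k j) : Dom0 μ (cst c : Sm (nb F K)) :=
  dom0_of hμ (rep_mk _ (smF_const c)) k fun θ =>
    (h θ).imp fun _ h => ⟨h.1, h.2.mono fun _ h _ _ => h⟩

/-- Constants which depend on the parameter only are bounded. -/
theorem bd_th (c : Th F → ℂ) : Bd (cst fun j => c (th F j) : Sm (nb F K)) :=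
  dom_cst wgt_one _ (dom0_cst wgt_one _ 0 fun θ => ⟨‖c θ‖, norm_nonneg _,
    (Gr.th_eq 0 θ).mono fun j h => by simp [w1, h]⟩)

theorem bd_alg (z : ℂ) : Bd (algebraMap ℂ (Sm (nb F K)) z) := bd_th fun _ => z

theorem bd_one : Bd (1 : Sm (nb F K)) := by simpa only [map_one] using bd_alg (F := F) (K := K) 1

theorem Dom.neg (hμ : Wgt μ) (ha : Dom μ a) : Dom μ (-a) := by
  simpa only [map_neg, map_one, neg_one_mul] using Dom.bmul hμ (bd_alg (-1)) ha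

theorem Dom.sub (hμ : Wgt μ) (ha : Dom μ a) (hb : Dom μ b) : Dom μ (a - b) := by
  rw [sub_eq_add_neg]; exact ha.add hμ (hb.neg hμ)

theorem Dom0.neg (hμ : Wgt μ) (ha : Dom0 μ a) : Dom0 μ (-a) := by
  simpa only [map_neg, map_one, neg_one_mul] using Dom0.bmul hμ (bd_alg (-1)).dom0 ha

theorem Dom0.sub (hμ : Wgt μ) (ha : Dom0 μ a) (hb : Dom0 μ b) : Dom0 μ (a - b) := by
  rw [sub_eq_add_neg]; exact ha.add hμ (hb.neg hμ)

theorem dom_sum {ι : Type*} (hμ : Wgt μ) (s : Finset ι) {f : ι → Sm (nb F K)}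
    (h : ∀ i ∈ s, Dom μ (f i)) : Dom μ (∑ i ∈ s, f i) :=
  Finset.sum_induction f (Dom μ) (fun _ _ => Dom.add hμ) (dom_zero hμ) h

theorem dom0_sum {ι : Type*} (hμ : Wgt μ) (s : Finset ι) {f : ι → Sm (nb F K)}
    (h : ∀ i ∈ s, Dom0 μ (f i)) : Dom0 μ (∑ i ∈ s, f i) :=
  Finset.sum_induction f (Dom0 μ) (fun _ _ => Dom0.add hμ) (dom0_zero hμ) h

theorem dom_of_basis {ι : Type} [Fintype ι] (e : Module.Basis ι ℝ E) (hμ : Wgt μ) (h0 : Dom0 μ a)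
    (h : ∀ i, Dom μ (P354XG.pd (e i) a)) : Dom μ a := by
  rw [dom0_iff] at h0
  simp only [dom_iff] at h ⊢
  filter_upwards [h0, eventually_all.2 h, eventually_all.2 fun i => lf_pd (e i) a] with q h1 h2 h3 θ
  exact (dn_basis e (wgt_cw hμ _) (h1 θ) fun i => h3 i θ ▸ h2 i θ).le (Nat.le_succ _)

theorem dom_of [FiniteDimensional ℝ E] (hμ : Wgt μ) (h0 : Dom0 μ a)
    (h : ∀ v, Dom μ (P354XG.pd v a)) : Dom μ a :=
  dom_of_basis (Module.finBasis ℝ E) hμ h0 fun _ => h _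

variable (F K) in
/-- The algebra of bounded families. -/
def bdSub : Subalgebra ℂ (Sm (nb F K)) where
  carrier := {a | Bd a}
  mul_mem' ha hb := Dom.bmul wgt_one ha hb
  add_mem' ha hb := Dom.add wgt_one ha hb
  algebraMap_mem' := bd_alg

variable (F K) in
/-- The ideal of the bounded families which are dominated by μ. -/
def domI (hμ : Wgt μ) : Ideal (bdSub F K) where
  carrier := {a | Dom μ a.1}
  add_mem' ha hb := Dom.add hμ ha hb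
  zero_mem' := dom_zero hμ
  smul_mem' c _ ha := Dom.bmul hμ c.2 ha

/-- A derivation which keeps all the classes Dom μ. -/
def Keeps (D : Der (Sm (nb F K))) : Prop := ∀ μ, Wgt μ → ∀ a, Dom μ a → Dom μ (D a)

theorem keeps_pd (v : E) : Keeps (P354XG.pd v : Der (Sm (nb F K))) := fun _ _ _ h => h.pd v
theorem Keeps.add {D D' : Der (Sm (nb F K))} (h : Keeps D) (h' : Keeps D') : Keeps (D + D') :=
  fun μ hμ a ha => (h μ hμ a ha).add hμ (h' μ hμ a ha)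
theorem Keeps.smul {D : Der (Sm (nb F K))} (h : Keeps D) (hc : Bd a) : Keeps (a • D) :=
  fun μ hμ b hb => Dom.bmul hμ hc (h μ hμ b hb)
theorem Keeps.neg {D : Der (Sm (nb F K))} (h : Keeps D) : Keeps (-D) :=
  fun μ hμ b hb => (h μ hμ b hb).neg hμ
theorem Keeps.sub {D D' : Der (Sm (nb F K))} (h : Keeps D) (h' : Keeps D') : Keeps (D - D') :=
  fun μ hμ a ha => (h μ hμ a ha).sub hμ (h' μ hμ a ha)
theorem keeps_zero : Keeps (0 : Der (Sm (nb F K))) := fun _ hμ _ _ => dom_zero hμ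
theorem keeps_sum {ι : Type*} (s : Finset ι) {D : ι → Der (Sm (nb F K))}
    (h : ∀ i ∈ s, Keeps (D i)) : Keeps (∑ i ∈ s, D i) :=
  Finset.sum_induction D Keeps (fun _ _ => Keeps.add) keeps_zero h

end Vale.Agent.P354MG
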