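import Vale.Agent.P354MG.Key
import Vale.Agent.P354LC.Lcf

/-!
The comparison with Kerr on the near region.
-/

open scoped ContDiff
open Set Filter Topology

noncomputable section

namespace Vale.Agent.P354MG

open Vale.Agent.P354n (R4)
open Vale.Agent.P354XG Vale.Agent.P354XD Vale.Agent.P354XR Vale.Agent.P354XI Vale.Agent.P354Z
open Vale.Agent.P354XE (Tw gin rd pb)
open Vale.Agent.P354XO (Om Cht b4 dn4 dnf)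
open Vale.Agent.P354YI (Jb)
open Vale.Agent.P354YO (sh IsTh Sb bd_mono)
open Vale.Agent.P354CQ (glu anc)

variable {f : Fx} {v : Va} {q : Qn} {Rb E e0 e1 μ e : ℝ} {k n m : ℕ} {C C1 : ℝ → ℝ} {x : E6}
  {F : ∀ O : Set E6, Tw → ℝ → ℝ → Fr (Sm (on O))}

/-- The conclusion of GEO. -/
structure Go (f : Fx) (v : Va) (q : Qn) (Rb : ℝ) : Prop extends Ge f v q Rb where
  pt : ∀ x ∈ f.X0 v q, pj (f.P x) = f.S (pj x) ∧ f.z.Pt q.c.Rs Rb v.Lv (f.S (pj x)) ∧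
    ∃ W, P354XV.Lv (f.gE v q) W ∧ pj (f.ac v q x) ∈ W
  pre : P354F2.Pre f.z.M (f.z.R1 + 3) (f.O2 v q) (f.gE v q)
  rg : ∀ F e0, P354CQ.Rg (f.c q) (f.n q) v.Lv (f.na v) (f.al v) (f.E v q F e0)
  seg : ∀ x ∈ f.X1 v q, Est.Fa (f.c q) (f.ac v q x) →
    ∀ y ∈ P354F2.Seg f.z.M (f.z.R1 + 3) (f.ac v q x), ∃ x' ∈ f.X1 v q, f.ac v q x' = y ∧
      x'.1 = x.1 ∧ x'.2.1 ≤ x.2.1

theorem go_of (h : GEO) (o : f.Ok) (g : Ge f v q Rb) : Go f v q Rb :=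
  let ⟨_, a, b, c, d⟩ := h f v q Rb o g
  ⟨g, a, b, c, d⟩

namespace Go
variable (g : Go f v q Rb)
include g

theorem rs : f.z.R1 + 4 ≤ q.c.Rs := by
  obtain ⟨a, b, c, -⟩ := g.su.nm.rad
  change 10 ≤ f.z.R1 at a
  change 10 * f.z.R1 ≤ q.c.R2 at b
  change 10 * q.c.R2 ≤ q.c.Rs at c
  linarith

theorem co1 : Cone (f.O1 v q) := g.su.cone g.su.op1 fun _ h => h.1.1

theorem rad (hx : x ∈ f.X1 v q) :
    f.a.r1 ≤ (f.ac v q x).2.1 ∧ (f.ac v q x).2.1 ≤ q.c.Rs + 1 := by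
  have a := (abs_le.1 (g.su.r_near (P354CQ.of1 hx) hx.1.2)).2
  have b := (g.su.nm.k1 g.su.e0).2.2.2
  have c : x.2.1 < q.c.Rs := hx.1.2
  exact ⟨(P354LC.r_ge g.su (P354CQ.of1 hx)).1, by
    change (glu _ _ _ x).2.1 ≤ _
    linarith⟩

theorem vac1 : ∀ y ∈ f.O1 v q, VacAt (f.gE v q) (pj y) := by
  rintro _ ⟨x, hx, rfl⟩
  obtain ⟨W, l, h⟩ := (g.pt x (x0_of hx)).2.2
  exact ⟨W, l.isOpen, h, l.met, l.vac⟩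

theorem vac2 : ∀ y ∈ f.O2 v q, VacAt (f.gE v q) (pj y) := fun y hy =>
  let ⟨W, l, h⟩ := g.pre.lv y hy
  ⟨W, l.isOpen, h, l.met, l.vac⟩

theorem o2 (hx : x ∈ f.X1 v q) (a : Est.Fa (f.c q) (f.ac v q x)) : f.ac v q x ∈ f.O2 v q := by
  have := g.su.r_gt (P354CQ.of1 hx) a.1
  exact (g.rg (fun O _ _ _ => fE O 0 0 0 0) 0).m2 x ⟨⟨hx.1.1, by
    change _ < x.2.1
    linarith⟩, hx.2⟩ a

end Go

/-- The metric at the points of the ray through x. -/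
theorem Mt.win (t : Mt f v q k n C E e0) (g : Go f v q Rb) (c : Monotone C) (c1 : ∀ ρ, 1 ≤ C ρ)
    (w0 : ∀ u, Wn f v q.c.Rs k e0 q.c.Rs u E) {ρ : ℝ} (r : f.z.R1 + 3 ≤ ρ) (r' : x.2.1 ≤ ρ)
    (w : Wn f v q.c.Rs k e0 ρ x.1 μ) : ∃ d, 0 ≤ d ∧ d ≤ C q.c.Rs * E ∧ d ≤ C ρ * μ ∧
      ∀ x' ∈ f.X1 v q, x'.1 = x.1 → x'.2.1 ≤ x.2.1 →
        P354XE.Bd n (f.gE v q - kE v.M v.a v.A v.B) (pj (f.ac v q x')) d := by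
  have i := w.inf (w0 x.1)
  have i0 := i.nn
  have p := fun ρ => (c1 ρ).trans' zero_le_one
  refine ⟨C (min ρ q.c.Rs) * min μ E, mul_nonneg (p _) i0,
    mul_le_mul (c (min_le_right _ _)) (min_le_right _ _) i0 (p _),
    mul_le_mul (c (min_le_left _ _)) (min_le_left _ _) i0 (p _), fun x' h a b =>
    (t.pt _ ⟨le_min r (by linarith [g.rs]), min_le_right _ _⟩ x' h
      (le_min (b.trans r') (le_of_lt h.1.2)) _ (min_le_right _ _) (a ▸ i)).1⟩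

section near
variable {CW : ℝ} (t : Mt f v q k n C E e0) (g : Go f v q Rb) (c : Monotone C) (c1 : ∀ ρ, 1 ≤ C ρ)
  (w0 : ∀ u, Wn f v q.c.Rs k e0 q.c.Rs u E) (s : C q.c.Rs * E ≤ e) (m1 : Monotone C1)
  (p1 : ∀ ρ, 1 ≤ C1 ρ) (mn : m ≤ n) (th : IsTh f.z.M v.M v.a v.A v.B)
  (par : |v.M - f.z.M| + |v.a - f.z.a| ≤ e)
  (cb : ∀ ρ, C1 ρ * C (ρ + 1 / 4) * CW ≤ q.b.C ρ) (l0 : q.b.L0 = k)
  (wn : ∀ ρ ≥ f.z.R1 + 3, ∀ x ∈ f.X1 v q, (f.ac v q x).2.1 ≤ ρ → ∀ A Q,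
    (f.E v q F e1).Past (f.c q) ((f.E v q F e1).eta k) ρ (f.ac v q x).1 A →
    (f.E v q F e1).Tail (f.c q) (f.ac v q x).1 Q →
    x.2.1 ≤ ρ + 1 / 4 ∧ Wn f v q.c.Rs k e0 (ρ + 1 / 4) x.1 (CW * (A + Q))) (cw : 1 ≤ CW)
include t g c c1 w0 s m1 p1 mn th par cb l0 wn cw

omit t g c w0 s mn th par l0 wn in
theorem fin_le {ρ d X : ℝ} (d0 : 0 ≤ d) (h : d ≤ C (ρ + 1 / 4) * (CW * X)) (X0 : 0 ≤ CW * X) :
    (C1 (min ρ (q.c.Rs + 1)) * d) ^ 2 ≤ (q.b.C ρ * X) ^ 2 := by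
  have a := (p1 (min ρ (q.c.Rs + 1))).trans' zero_le_one
  have b := m1 (min_le_left ρ (q.c.Rs + 1))
  have X1 : 0 ≤ X := nonneg_of_mul_nonneg_right X0 (by linarith)
  refine pow_le_pow_left₀ (mul_nonneg a d0) ?_ 2
  calc _ ≤ C1 ρ * (C (ρ + 1 / 4) * (CW * X)) := mul_le_mul b h d0 (a.trans b)
    _ = C1 ρ * C (ρ + 1 / 4) * CW * X := by ring
    _ ≤ _ := mul_le_mul_of_nonneg_right (cb ρ) X1

theorem near1 (ok : OkE (f.O1 v q) (f.gE v q) f.z.M v.M v.a)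
    (h : ∀ ρ ≤ q.c.Rs + 1, OneP f.z.M f.z.a f.a.r1 q.b.N0 m ρ (C1 ρ) e) :
    ∀ ρ, (f.c q).R1 + 3 ≤ ρ → ∀ x ∈ (f.E v q F e1).O1, An x → x.2.1 ≤ ρ → ∀ A Q,
      (f.E v q F e1).Past (f.c q) ((f.E v q F e1).eta (f.c q).L0) ρ x.1 A →
      (f.E v q F e1).Tail (f.c q) x.1 Q → ∀ i,
        q2 (lt (hp _) ((f.E v q F e1).p1 (f.c q))) x (f.c q).N0 ((f.E v q F e1).d1 (f.c q) i) ≤
          ((f.c q).C ρ * (A + Q)) ^ 2 := by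
  rintro ρ r _ ⟨x, hx, rfl⟩ a r' A Q pa ta i
  change f.z.R1 + 3 ≤ ρ at r
  obtain ⟨u, w⟩ := wn ρ r x hx r' A Q (l0 ▸ pa) ta
  obtain ⟨d, d0, d1, d2, b⟩ := t.win g c c1 w0 (by linarith) u w
  exact (h _ (min_le_right _ _) _ _ _ _ _ _ g.co1 g.vac1 th par ok _ ⟨x, hx, rfl⟩ a (g.rad hx).1
    (le_min r' (g.rad hx).2) d ⟨d0, d1.trans s⟩ (bd_mono (b x hx rfl le_rfl) mn le_rfl) i).trans
    (fin_le c1 m1 p1 cb cw d0 d2 w.nn)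

theorem near2 (h : ∀ ρ ≤ q.c.Rs + 1, TwoP f.z.M f.z.a (f.z.R1 + 3) F q.b.N0 m ρ (C1 ρ) e) :
    ∀ ρ, (f.c q).R1 + 3 ≤ ρ → ∀ x ∈ (f.E v q F e1).O1, An x → x.2.1 ≤ ρ → Est.Fa (f.c q) x →
      ∀ A Q, (f.E v q F e1).Past (f.c q) ((f.E v q F e1).eta (f.c q).L0) ρ x.1 A →
      (f.E v q F e1).Tail (f.c q) x.1 Q → ∀ i,
        q2 (lt (hp _) ((f.E v q F e1).p2 (f.c q))) x (f.c q).N0 ((f.E v q F e1).d2 (f.c q) i) ≤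
          ((f.c q).C ρ * (A + Q)) ^ 2 := by
  rintro ρ r _ ⟨x, hx, rfl⟩ a r' fa A Q pa ta i
  change f.z.R1 + 3 ≤ ρ at r
  obtain ⟨u, w⟩ := wn ρ r x hx r' A Q (l0 ▸ pa) ta
  obtain ⟨d, d0, d1, d2, b⟩ := t.win g c c1 w0 (by linarith) u w
  refine (h _ (min_le_right _ _) _ _ _ _ _ _ g.pre th par _ (g.o2 hx fa) a fa.1 fa.2
    (le_min r' (g.rad hx).2) d ⟨d0, d1.trans s⟩ (fun y hy => ?_) i).trans
    (fin_le c1 m1 p1 cb cw d0 d2 w.nn)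
  obtain ⟨x', h1, rfl, h2, h3⟩ := g.seg x hx fa y hy
  exact bd_mono (b x' h1 h2 h3) mn le_rfl

end near

end Vale.Agent.P354MG
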