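import Vale.Agent.P354MG.Parts

/-!
The near chart in the straight coordinates. Exact statements.
-/

open scoped ContDiff
open Set Filter Topology

noncomputable section

namespace Vale.Agent.P354MG

open Vale.Agent.P354n (R4)
open Vale.Agent.P354XE (Tw gin rd pb)
open Vale.Agent.P354YI (Jb)
open Vale.Agent.P354YO (sh IsTh Sb)

/-- The inverse of st4, the chart y in the straight coordinates, and the interpolation between the
identity and a map. -/
def ts4 (M0 : ℝ) (A B : ℝ → ℝ) : R4 → R4 := sh (-fun r => A r - 4 * M0 ^ 2 / r) (-B)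
def phN (M0 : ℝ) (A B A' B' : ℝ → ℝ) (y : R4 → R4) (q : R4) : R4 :=
  ts4 M0 A' B' (y (st4 M0 A B q))
def phB (ti : ℝ) (φ : R4 → R4) (q : R4) : R4 := q + Real.smoothTransition (q.1 - ti) • (φ q - q)

/-- The chart for the parameters (M', a'), normalised at the radius R. -/
structure Nth (M R M' a' : ℝ) (A B A' B' : ℝ → ℝ) : Prop where
  th : IsTh M M' a' A' B'
  A : A' R = A R
  B : B' R = B R

/-- THE: existence. -/
def THE : Prop := ∀ M R M' a' A B, 0 < M → ∃ A' B', Nth M R M' a' A B A' B'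

/-- PHA: the late zone. -/
def PHA : Prop := ∀ (M a r1 R ρ : ℝ) (A B : ℝ → ℝ) (n : ℕ), |a| < M → 0 < r1 → r1 ≤ R →
  IsTh M M a A B → ∃ C, ∃ e > 0, ∀ (g : Tw) y M' a' A' B' (p : ℝ × ℝ) q μ ν,
    Nth M R M' a' A B A' B' → |M' - M| + |a' - a| ≤ ν → ‖p - (M', a')‖ ≤ μ → μ ≤ ν → ν ≤ e →
    r1 ≤ rd q → rd q ≤ ρ → Sb g (st4 M A B q) → Nid n y (st4 M A B q) ν →
    P354XE.Bd n (g - pb y (gin p.1 p.2)) (st4 M A B q) μ →
    Nid n (phN M A B A' B' y) q (C * ν) ∧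
      |(phN M A B A' B' y q - q).1| ≤ |(y (st4 M A B q) - st4 M A B q).1| + C * ν ∧
      P354XE.Bd n (pb (st4 M A B) g - pb (phN M A B A' B' y) (kS M M' a' A' B')) q (C * μ)

/-- PHB: the early zone. -/
def PHB : Prop := ∀ (M a r1 R ρ : ℝ) (A B : ℝ → ℝ) (n : ℕ), |a| < M → 0 < r1 → r1 ≤ R →
  IsTh M M a A B → ∃ C, ∃ e > 0, ∀ (φ : R4 → R4) ti q ν, ν ≤ e → r1 ≤ rd q → rd q ≤ ρ →
    Nid n φ q ν → |(φ q - q).1| ≤ ν →
    Nid n (phB ti φ) q (C * ν) ∧ Jb (n + 1) (fun x => phB ti φ x - x) q (C * ν) ∧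
      Jb n (dfc (phB ti φ) 1) q (C * ν) ∧ ∀ (g : Tw) M' a' A' B', Nth M R M' a' A B A' B' →
        |M' - M| + |a' - a| ≤ ν → Sb g (st4 M A B q) →
        P354XE.Bd n (g - gin M a) (st4 M A B q) ν →
        P354XE.Bd n (pb (st4 M A B) g - pb (phB ti φ) (kS M M' a' A' B')) q (C * ν)

end Vale.Agent.P354MG
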