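import Vale.Agent.P354MG.Phi

/-!
The frame along the outgoing rays. Exact statements.
-/

open scoped ContDiff
open Set Filter Topology

noncomputable section

namespace Vale.Agent.P354MG

open Vale.Agent.P354n (R4)
open Vale.Agent.P354XG Vale.Agent.P354XD Vale.Agent.P354XR Vale.Agent.P354XI Vale.Agent.P354Z
open Vale.Agent.P354XE (Tw gin rd)
open Vale.Agent.P354XV (Lv)
open Vale.Agent.P354YO (sh IsTh Sb)
open Vale.Agent.P354YK (out oth)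

/-- The metric on vectors of the cone, the field along the rays, the point with the radius s on
the ray through y, and the radius of the anchor of the ray with the time u. -/
def G6 (g : Tw) (y v w : E6) : ℝ := g (pj y) (fderiv ℝ pj y v) (fderiv ℝ pj y w)
def rv6 (M : ℝ) (y : E6) : E6 := (4 * M ^ 2 / y.2.1 ^ 2, 1, 0)
def ry (M s : ℝ) (y : E6) : E6 := (uu M y - 4 * M ^ 2 / s, s, y.2.2)
def be2 (R u : ℝ) : ℝ :=
  R + 11 / 4 + Real.smoothTransition (4 * (-u - R - 13 / 4)) * (-u - R - 13 / 4)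

/-- The rays are null geodesics with the affine parameter r. -/
structure Rid (M : ℝ) (O : Set E6) (g : Tw) : Prop where
  RR : ∀ y ∈ O, G6 g y (rv6 M y) (rv6 M y) = 0
  RT : ∀ y ∈ O, G6 g y (rv6 M y) (1, 0) = -1
  RO : ∀ y ∈ O, ∀ y' ∈ O, uu M y = uu M y' → y.2.2 = y'.2.2 → ∀ w : ℂ × ℂ,
    G6 g y (rv6 M y) (0, 0, w) = G6 g y' (rv6 M y') (0, 0, w)

/-- The far region is star shaped with respect to the anchors. -/
structure Ry2 (M R : ℝ) (O : Set E6) (g : Tw) : Prop where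
  co : Cone O
  rad : ∀ y ∈ O, R + 2 ≤ y.2.1
  star : ∀ y ∈ O, ∀ s ∈ uIcc (be2 R (uu M y)) y.2.1, ry M s y ∈ O
  lv : ∀ y ∈ O, ∃ W, Lv g W ∧ pj y ∈ W
  rid : Rid M O g

/-- The gauge of the frame F2. -/
structure Ga2 (O : Set E6) (g : Tw) (M0 M a : ℝ) (F : Fr (Sm (on O))) : Prop where
  w2 : F.WN (ge O g)
  th : (F.ghp (ge O g)).th = oth (kO O M0 M a)
  ka : (F.ghp (ge O g)).ka = 0
  ta : (F.ghp (ge O g)).ta' = (kO O M0 M a).ta2
  lT : 2 * (ge O g).dot F.l ((hp _).prj ((hp _).d 0)) = -(hp _).N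

/-- The difference to the outgoing frame of Kerr. -/
def df2 (O : Set E6) (g : Tw) (M0 M a : ℝ) (F : Fr (Sm (on O))) (i : (Fin 4 × Fin 6) ⊕ Fin 13) :
    Sm (on O) :=
  dat (hp _) (pO O M0 M a) (F.ghp (ge O g)) i - dat (hp _) (pO O M0 M a) (out (kO O M0 M a)) i

/-- FTWO: the frame, the comparison on bounded radii, and the comparison in the layer. -/
def FTWO : Prop := ∀ M0 a0 R : ℝ, |a0| < M0 → 10 * M0 + 10 ≤ R →
  ∃ F : ∀ (O : Set E6) (_ : Tw) (_ _ : ℝ), Fr (Sm (on O)),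
    (∀ O g M a, Ry2 M0 R O g → |a| < M → M ≤ 5 / 4 * M0 → Ga2 O g M0 M a (F O g M a)) ∧
    (∀ n, ∃ m, ∀ ρ, ∃ C, ∃ e > 0, ∀ O g M a A B, Ry2 M0 R O g → IsTh M0 M a A B →
      |M - M0| + |a - a0| ≤ e → ∀ x ∈ O, An x → be2 R (uu M0 x) ≤ x.2.1 → x.2.1 ≤ ρ →
      ∀ d ∈ Icc 0 e, (∀ s ∈ Icc (be2 R (uu M0 x)) x.2.1,
        P354XE.Bd m (g - kE M a A B) (pj (ry M0 s x)) d) →
      ∀ i, q2 (lt (hp _) (pO O M0 M a)) x n (df2 O g M0 M a (F O g M a) i) ≤ (C * d) ^ 2) ∧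
    ∀ n, ∃ m C, ∃ e > 0, ∀ O g M a A B, Ry2 M0 R O g → IsTh M0 M a A B →
      |M - M0| + |a - a0| ≤ e → ∀ x ∈ O, An x → 4 * R ≤ x.2.1 → 0 ≤ uu M0 x + x.2.1 →
      uu M0 x + x.2.1 ≤ x.2.1 / 10 → ∀ d ∈ Icc 0 e, (∀ s ∈ Icc (be2 R (uu M0 x)) x.2.1,
        P354YI.Sm m d (g - kE M a A B) (pj (ry M0 s x))) →
      ∀ i, q2 (ll (hp _) (pO O M0 M a)) x n (df2 O g M0 M a (F O g M a) i) ≤
        (C * d / x.2.1 ^ dm i) ^ 2

/-- LAYM: the metric of the collar in the chart of the estimates, with weights. -/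
def LAYM : Prop := ∀ (M a R : ℝ) (A B : ℝ → ℝ) (n : ℕ), |a| < M → 6 * M + 1 ≤ R → IsTh M M a A B →
  ∃ C, ∃ e > 0, ∀ (g : Tw) M' a' A' B' q d, IsTh M M' a' A' B' → |M' - M| + |a' - a| ≤ e →
    R ≤ rd q → 0 ≤ d → Sb g (sh A B q) → P354YI.Sm n d (g - gin M a) (sh A B q) →
    P354YI.Sm n (C * (d + (|M' - M| + |a' - a|))) (P354XE.pb (sh A B) g - kE M' a' A' B') q

end Vale.Agent.P354MG
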